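import Vale.Agent.Lib.P346.Lower

/-! A short and narrow iterated matrix product computing `W ^ |x|` for all `x` whose weight lies
in a window. -/

namespace Vale.P346

open Finset

/-! ### Interpolation on a window modulo two -/

section interpolation

variable {A : Type} [Ring A]

lemma choose_pred_mod (h2 : (2 : A) = 0) (s j : ℕ) :
    (((s).choose j : ℕ) : A) = ∑ i ∈ range (j + 1), (((s + 1).choose i : ℕ) : A) := by
  induction j with
  | zero => simp
  | succ j ih =>
    rw [Finset.sum_range_succ, ← ih, Nat.choose_succ_succ]
    push_cast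
    have : ((s.choose j : ℕ) : A) + ((s.choose j : ℕ) : A) = 0 := by
      rw [← two_mul, h2, zero_mul]
    rw [← add_assoc, this, zero_add]

lemma window_interp (h2 : (2 : A) = 0) (r : ℕ) : ∀ (s0 : ℕ) (f : ℕ → A), ∃ a : ℕ → A,
    ∀ s, s0 ≤ s → s ≤ s0 + r → f s = ∑ j ∈ range (r + 1), ((s.choose j : ℕ) : A) * a j := by
  intro s0
  induction s0 with
  | zero =>
    intro f
    induction r with
    | zero =>
      refine ⟨fun _ => f 0, fun s _ hs => ?_⟩
      have : s = 0 := by omega
      subst this
      simp
    | succ r ih =>
      obtain ⟨a, ha⟩ := ih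
      refine ⟨fun j => if j = r + 1 then
        f (r + 1) - ∑ j ∈ range (r + 1), (((r + 1).choose j : ℕ) : A) * a j else a j,
        fun s _ hs => ?_⟩
      rw [Finset.sum_range_succ]
      have h1 : ∑ j ∈ range (r + 1), ((s.choose j : ℕ) : A) *
          (if j = r + 1 then f (r + 1) - ∑ j ∈ range (r + 1), (((r + 1).choose j : ℕ) : A) * a j
            else a j) = ∑ j ∈ range (r + 1), ((s.choose j : ℕ) : A) * a j := by
        refine Finset.sum_congr rfl (fun j hj => ?_)
        rw [Finset.mem_range] at hj
        rw [if_neg (by omega)]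
      rw [h1]
      simp only [↓reduceIte]
      rcases Nat.lt_or_ge r s with hlt | hge
      · have : s = r + 1 := by omega
        subst this
        simp
      · rw [Nat.choose_eq_zero_of_lt (by omega)]
        simpa using ha s (by omega) (by omega)
  | succ s0 ih =>
    intro f
    obtain ⟨a, ha⟩ := ih (fun s => f (s + 1))
    refine ⟨fun i => ∑ j ∈ range (r + 1), if i ≤ j then a j else 0, fun s hs0 hs => ?_⟩
    obtain ⟨s', rfl⟩ : ∃ s', s = s' + 1 := ⟨s - 1, by omega⟩
    rw [ha s' (by omega) (by omega)]
    have h1 : ∀ j ∈ range (r + 1), ((s'.choose j : ℕ) : A) * a j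
        = ∑ i ∈ range (r + 1), (((s' + 1).choose i : ℕ) : A) * (if i ≤ j then a j else 0) := by
      intro j hj
      rw [Finset.mem_range] at hj
      rw [choose_pred_mod h2, Finset.sum_mul]
      have h2 : ∑ i ∈ range (r + 1), (((s' + 1).choose i : ℕ) : A) * (if i ≤ j then a j else 0)
          = ∑ i ∈ range (j + 1), (((s' + 1).choose i : ℕ) : A) * (if i ≤ j then a j else 0) := by
        symm
        refine Finset.sum_subset (Finset.range_subset_range.mpr (by omega)) (fun i _ hi => ?_)
        rw [Finset.mem_range] at hi
        rw [if_neg (by omega), mul_zero]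
      rw [h2]
      refine Finset.sum_congr rfl (fun i hi => ?_)
      rw [Finset.mem_range] at hi
      rw [if_pos (by omega)]
    rw [Finset.sum_congr rfl h1, Finset.sum_comm]
    refine Finset.sum_congr rfl (fun i _ => ?_)
    rw [Finset.mul_sum]

end interpolation

/-! ### The transition matrices -/

section transitions

variable {A : Type} [Ring A] {k : ℕ}

/-- extension of `x` by zero -/
def ext0 (x : Fin k → ZMod 2) (i : ℕ) : ℕ := if h : i < k then (x ⟨i, h⟩).val else 0

/-- number of ones among the first `j` bits -/
def cnt (x : Fin k → ZMod 2) (j : ℕ) : ℕ := ∑ i ∈ range j, ext0 x i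

lemma cnt_succ (x : Fin k → ZMod 2) (j : ℕ) : cnt x (j + 1) = cnt x j + ext0 x j := by
  rw [cnt, cnt, Finset.sum_range_succ]

lemma cnt_full (x : Fin k → ZMod 2) : cnt x k = wt x := by
  rw [cnt, wt, ← Fin.sum_univ_eq_sum_range]
  refine Finset.sum_congr rfl (fun i _ => ?_)
  simp [ext0]

/-- States: `none` is the hub, `some p` is the position `p`. -/
abbrev St (k : ℕ) := Option (Fin (k + 1))

/-- entering matrix: from the hub to position `0` -/
def inMat (A : Type) [Ring A] (k : ℕ) : Matrix (St k) (St k) A :=
  Matrix.of fun s s' => if s = none ∧ s' = some 0 then 1 else 0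

/-- leaving matrix: keep only the hub -/
def outMat (A : Type) [Ring A] (k : ℕ) (w : A) : Matrix (St k) (St k) A :=
  Matrix.of fun s s' => if s = none ∧ s' = none then w else 0

/-- transition matrix -/
def trMat (a : A) (x : Fin k → ZMod 2) : Matrix (St k) (St k) A :=
  Matrix.of fun s s' => match s, s' with
    | none, none => 1
    | none, some _ => 0
    | some _, none => a
    | some p, some p' => if p.val < p'.val then ((ext0 x (p'.val - 1) : ℕ) : A) else 0

/-- the entries of the row of the hub -/
def rowP (x : Fin k → ZMod 2) (t : ℕ) (p : ℕ) : A :=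
  match p with
  | 0 => (((0 : ℕ).choose t : ℕ) : A)
  | (j + 1) => (((cnt x (j + 1)).choose t : ℕ) : A) - (((cnt x j).choose t : ℕ) : A)

lemma sum_rowP (x : Fin k → ZMod 2) (t m : ℕ) :
    ∑ p ∈ range (m + 1), (rowP x t p : A) = (((cnt x m).choose t : ℕ) : A) := by
  induction m with
  | zero => simp [rowP, cnt]
  | succ m ih =>
    rw [Finset.sum_range_succ, ih]
    simp [rowP]

lemma rowP_succ (x : Fin k → ZMod 2) (t j : ℕ) :
    (rowP x (t + 1) (j + 1) : A) = (((cnt x j).choose t : ℕ) : A) * ((ext0 x j : ℕ) : A) := by
  have hb : ext0 x j = 0 ∨ ext0 x j = 1 := by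
    unfold ext0
    split_ifs with h
    · rcases zmod2_cases (x ⟨j, h⟩) with h | h <;> rw [h]
      · left; rfl
      · right; rfl
    · left; rfl
  rw [rowP, cnt_succ]
  rcases hb with hb | hb <;> rw [hb]
  · simp
  · rw [Nat.choose_succ_succ]
    push_cast
    simp

lemma row_step (a : A) (x : Fin k → ZMod 2) (t : ℕ) (u : St k → A) (hub : A)
    (hu : ∀ p : Fin (k + 1), u (some p) = rowP x t p.val) (hu0 : u none = hub) :
    (∀ p' : Fin (k + 1), ∑ s, u s * trMat a x s (some p') = rowP x (t + 1) p'.val) ∧
    ∑ s, u s * trMat a x s none = hub + (((wt x).choose t : ℕ) : A) * a := by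
  constructor
  · intro p'
    rw [Fintype.sum_option]
    have h1 : u none * trMat a x none (some p') = 0 := by simp [trMat]
    rw [h1, zero_add]
    rcases Nat.eq_zero_or_pos p'.val with h0 | hpos
    · rw [Finset.sum_eq_zero]
      · rw [h0]
        simp [rowP]
      · intro p _
        have hnlt : ¬ (p.val < p'.val) := by omega
        simp only [trMat, Matrix.of_apply, if_neg hnlt, mul_zero]
    · obtain ⟨j, hj⟩ : ∃ j, p'.val = j + 1 := ⟨p'.val - 1, by omega⟩
      have h2 : ∀ p : Fin (k + 1), u (some p) * trMat a x (some p) (some p')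
          = (if p.val < j + 1 then (rowP x t p.val : A) * ((ext0 x j : ℕ) : A) else 0) := by
        intro p
        rw [hu]
        simp only [trMat, Matrix.of_apply, hj, Nat.add_sub_cancel]
        split_ifs <;> simp
      rw [Finset.sum_congr rfl (fun p _ => h2 p), hj, rowP_succ]
      rw [Fin.sum_univ_eq_sum_range
        (fun p => if p < j + 1 then (rowP x t p : A) * ((ext0 x j : ℕ) : A) else 0) (k + 1)]
      have hjk : j + 1 ≤ k := by have := p'.isLt; omega
      rw [← Finset.sum_filter]
      have h3 : (range (k + 1)).filter (fun p => p < j + 1) = range (j + 1) := by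
        ext p
        simp only [Finset.mem_filter, Finset.mem_range]
        omega
      rw [h3, ← Finset.sum_mul, sum_rowP]
  · rw [Fintype.sum_option, hu0]
    have h1 : trMat a x none none = 1 := rfl
    rw [h1, mul_one]
    congr 1
    have h2 : ∀ p : Fin (k + 1), u (some p) * trMat a x (some p) none = rowP x t p.val * a := by
      intro p
      rw [hu]
      rfl
    rw [Finset.sum_congr rfl (fun p _ => h2 p), ← Finset.sum_mul,
      Fin.sum_univ_eq_sum_range (fun p => (rowP x t p : A)) (k + 1), sum_rowP, cnt_full]

/-- The list of matrices of a block. -/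
def blockList (a : ℕ → A) (x : Fin k → ZMod 2) (n : ℕ) : List (Matrix (St k) (St k) A) :=
  (List.range n).map (fun t => trMat (a t) x)

lemma row_blockList (a : ℕ → A) (x : Fin k → ZMod 2) (n : ℕ) :
    (∀ p : Fin (k + 1), (inMat A k * (blockList a x n).prod) none (some p) = rowP x n p.val) ∧
    (inMat A k * (blockList a x n).prod) none none
      = ∑ t ∈ range n, (((wt x).choose t : ℕ) : A) * a t := by
  induction n with
  | zero =>
    constructor
    · intro p
      simp only [blockList, List.range_zero, List.map_nil, List.prod_nil, mul_one, inMat,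
        Matrix.of_apply, true_and, Option.some.injEq]
      rcases Nat.eq_zero_or_pos p.val with h0 | hpos
      · have : p = 0 := Fin.ext h0
        subst this
        simp [rowP]
      · have hne : p ≠ 0 := by
          intro h
          rw [h] at hpos
          simp at hpos
        obtain ⟨j, hj⟩ : ∃ j, p.val = j + 1 := ⟨p.val - 1, by omega⟩
        rw [if_neg hne, hj]
        simp [rowP]
    · simp [blockList, inMat]
  | succ n ih =>
    have hl : (blockList a x (n + 1)).prod = (blockList a x n).prod * trMat (a n) x := by
      rw [blockList, List.range_succ, List.map_append, List.prod_append]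
      simp [blockList]
    rw [hl, ← mul_assoc]
    have := row_step (a n) x n (fun s => (inMat A k * (blockList a x n).prod) none s)
      (∑ t ∈ range n, (((wt x).choose t : ℕ) : A) * a t) ih.1 ih.2
    constructor
    · intro p
      rw [Matrix.mul_apply]
      exact this.1 p
    · rw [Matrix.mul_apply, Finset.sum_range_succ]
      exact this.2

/-- A matrix whose hub row is concentrated at the hub. -/
def HubRow (M : Matrix (St k) (St k) A) (w : A) : Prop :=
  M none none = w ∧ ∀ p, M none (some p) = 0

lemma HubRow.mul {M N : Matrix (St k) (St k) A} {w v : A} (hM : HubRow M w) (hN : HubRow N v) :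
    HubRow (M * N) (w * v) := by
  constructor
  · rw [Matrix.mul_apply, Fintype.sum_option, hM.1, hN.1, Finset.sum_eq_zero, add_zero]
    intro p _
    rw [hM.2, zero_mul]
  · intro p
    rw [Matrix.mul_apply, Fintype.sum_option, hM.1, hN.2, Finset.sum_eq_zero, mul_zero, add_zero]
    intro p' _
    rw [hM.2, zero_mul]

lemma hubRow_one : HubRow (1 : Matrix (St k) (St k) A) 1 := by
  constructor
  · exact Matrix.one_apply_eq none
  · intro p
    exact Matrix.one_apply_ne (by simp)

/-- The full list of matrices of a block. -/
def fullBlock (a : ℕ → A) (x : Fin k → ZMod 2) (n : ℕ) : List (Matrix (St k) (St k) A) :=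
  inMat A k :: (blockList a x n ++ [outMat A k 1])

lemma hubRow_fullBlock (a : ℕ → A) (x : Fin k → ZMod 2) (n : ℕ) :
    HubRow (fullBlock a x n).prod (∑ t ∈ range n, (((wt x).choose t : ℕ) : A) * a t) := by
  have hl : (fullBlock a x n).prod = (inMat A k * (blockList a x n).prod) * outMat A k 1 := by
    rw [fullBlock, List.prod_cons, List.prod_append, mul_assoc]
    simp
  rw [hl]
  constructor
  · have h1 : outMat A k 1 none none = 1 := by simp [outMat]
    have h2 : ∀ p, outMat A k 1 (some p) none = 0 := fun p => by simp [outMat]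
    have h3 : ∑ p : Fin (k + 1), (inMat A k * (blockList a x n).prod) none (some p) *
        outMat A k 1 (some p) none = 0 := Finset.sum_eq_zero (fun p _ => by rw [h2, mul_zero])
    rw [Matrix.mul_apply, Fintype.sum_option, (row_blockList a x n).2, h1, mul_one, h3, add_zero]
  · intro p
    rw [Matrix.mul_apply]
    exact Finset.sum_eq_zero (fun s _ => by simp [outMat])

lemma hubRow_outMat (w : A) : HubRow (outMat A k w) w := by
  constructor
  · simp [outMat]
  · intro p
    simp [outMat]

end transitions

end Vale.P346
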