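import Vale.Agent.Lib.P346.Embed

/-! The divide-and-conquer circuit: a syntactically homogeneous depth-five circuit for
`IMM_{n,n}` of size `n^{O(√n)}`, over every commutative ring. -/

namespace Vale.P346

open Finset MvPolynomial

section upper

variable (R : Type) [CommRing R] (n g : ℕ)

/-- The divide-and-conquer circuit, with `g` blocks of `g` layers (`n ≤ g²`; the layers beyond `n`
are identity matrices). -/
def dcCircuit : Circuit R (Var n n) where
  G0 := Var n n ⊕ Bool
  G1 := (Fin g × Fin g) × Fin n × Fin n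
  G2 := Fin g × (Fin (g + 1) → Fin n)
  G3 := Fin g × Fin n × Fin n
  G4 := Fin (g + 1) → Fin n
  leaf := Sum.elim (fun v => Sum.inl v) (fun b => Sum.inr (if b then 1 else 0))
  in1 := fun x => if h : x.1.1.val * g + x.1.2.val < n then
      {Sum.inl (⟨x.1.1.val * g + x.1.2.val, h⟩, x.2.1, x.2.2)}
    else {Sum.inr (decide (x.2.1 = x.2.2))}
  c1 := fun _ _ => 1
  m2 := fun y x => if x.1.1 = y.1 ∧ x.2.1 = y.2 x.1.2.castSucc ∧ x.2.2 = y.2 x.1.2.succ then 1
    else 0
  in3 := fun z => univ.filter (fun y => y.1 = z.1 ∧ y.2 0 = z.2.1 ∧ y.2 (Fin.last g) = z.2.2)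
  c3 := fun _ _ => 1
  m4 := fun p z => if z.2.1 = p z.1.castSucc ∧ z.2.2 = p z.1.succ then 1 else 0
  in5 := univ.filter (fun p => (p 0 : ℕ) = 0 ∧ (p (Fin.last g) : ℕ) = 0)
  c5 := fun _ => 1

/-- the matrices, padded by identity matrices -/
noncomputable def padMat (t : ℕ) : Matrix (Fin n) (Fin n) (MvPolynomial (Var n n) R) :=
  if h : t < n then Matrix.of (fun i j => X (⟨t, h⟩, i, j)) else 1

lemma prod_sel {α β A : Type} [Fintype α] [DecidableEq α] [Fintype β] [CommMonoid A]
    (f : α → A) (e : β → α) (he : Function.Injective e) (m : α → ℕ)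
    (hm : ∀ x, m x = if x ∈ univ.image e then 1 else 0) :
    ∏ x, f x ^ m x = ∏ b, f (e b) := by
  have h1 : ∀ x, f x ^ m x = if x ∈ univ.image e then f x else 1 := by
    intro x
    rw [hm x]
    split_ifs <;> simp
  rw [Finset.prod_congr rfl (fun x _ => h1 x), Finset.prod_ite_mem, Finset.univ_inter,
    Finset.prod_image (fun _ _ _ _ h => he h)]

lemma dc_val1 (x : (Fin g × Fin g) × Fin n × Fin n) :
    (dcCircuit R n g).val1 x = padMat R n (x.1.1.val * g + x.1.2.val) x.2.1 x.2.2 := by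
  obtain ⟨⟨b, τ⟩, i, j⟩ := x
  unfold Circuit.val1 padMat
  change (∑ l ∈ (if h : b.val * g + τ.val < n then
      {Sum.inl (⟨b.val * g + τ.val, h⟩, i, j)}
    else {Sum.inr (decide (i = j))} : Finset (Var n n ⊕ Bool)), MvPolynomial.C (1 : R) *
      Sum.elim (fun v => X v) (fun r => MvPolynomial.C r)
        (Sum.elim (fun v => Sum.inl v) (fun b => Sum.inr (if b then (1 : R) else 0)) l
          : Var n n ⊕ R))
    = (if h : b.val * g + τ.val < n then
      Matrix.of (fun i j => X (⟨b.val * g + τ.val, h⟩, i, j)) else 1 :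
        Matrix (Fin n) (Fin n) (MvPolynomial (Var n n) R)) i j
  by_cases h : b.val * g + τ.val < n
  · rw [dif_pos h, dif_pos h, Finset.sum_singleton]
    simp
  · rw [dif_neg h, dif_neg h, Finset.sum_singleton]
    by_cases hij : i = j
    · subst hij
      simp
    · simp [hij]

lemma dc_val2 (b : Fin g) (p : Fin (g + 1) → Fin n) :
    (dcCircuit R n g).val2 (b, p)
      = ∏ τ : Fin g, padMat R n (b.val * g + τ.val) (p τ.castSucc) (p τ.succ) := by
  unfold Circuit.val2
  refine (prod_sel (α := (Fin g × Fin g) × Fin n × Fin n)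
    (fun x => (dcCircuit R n g).val1 x)
    (fun τ : Fin g => ((b, τ), p τ.castSucc, p τ.succ)) ?_ _ ?_).trans ?_
  · intro τ τ' h
    simp only [Prod.mk.injEq] at h
    exact h.1.2
  · rintro ⟨⟨b', τ⟩, i, j⟩
    change (if b' = b ∧ i = p τ.castSucc ∧ j = p τ.succ then 1 else 0) = _
    by_cases h : b' = b ∧ i = p τ.castSucc ∧ j = p τ.succ
    · obtain ⟨rfl, rfl, rfl⟩ := h
      simp
    · rw [if_neg h, if_neg]
      intro hmem
      rw [Finset.mem_image] at hmem
      obtain ⟨τ', _, hτ'⟩ := hmem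
      simp only [Prod.mk.injEq] at hτ'
      obtain ⟨⟨rfl, rfl⟩, rfl, rfl⟩ := hτ'
      exact h ⟨rfl, rfl, rfl⟩
  · exact Finset.prod_congr rfl (fun τ _ => dc_val1 R n g _)

/-- product of the padded matrices of a block -/
noncomputable def blockMat (b : ℕ) : Matrix (Fin n) (Fin n) (MvPolynomial (Var n n) R) :=
  (List.ofFn (fun τ : Fin g => padMat R n (b * g + τ.val))).prod

lemma dc_val3 (z : Fin g × Fin n × Fin n) :
    (dcCircuit R n g).val3 z = blockMat R n g z.1.val z.2.1 z.2.2 := by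
  obtain ⟨b, i, j⟩ := z
  unfold Circuit.val3 blockMat
  rw [prod_ofFn_apply]
  change ∑ y ∈ univ.filter (fun y : Fin g × (Fin (g + 1) → Fin n) =>
    y.1 = b ∧ y.2 0 = i ∧ y.2 (Fin.last g) = j), MvPolynomial.C (1 : R) *
      (dcCircuit R n g).val2 y = _
  rw [Finset.sum_filter, Fintype.sum_prod_type, Finset.sum_eq_single b]
  · refine Finset.sum_congr rfl (fun p _ => ?_)
    by_cases h : p 0 = i ∧ p (Fin.last g) = j
    · rw [if_pos ⟨rfl, h⟩, if_pos h, dc_val2]
      simp
    · rw [if_neg (fun h' => h h'.2), if_neg h]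
  · intro b' _ hb'
    refine Finset.sum_eq_zero (fun p _ => ?_)
    rw [if_neg (fun h' => hb' h'.1)]
  · intro h
    exact absurd (Finset.mem_univ _) h

lemma dc_val4 (p : Fin (g + 1) → Fin n) :
    (dcCircuit R n g).val4 p = ∏ b : Fin g, blockMat R n g b.val (p b.castSucc) (p b.succ) := by
  unfold Circuit.val4
  refine (prod_sel (α := Fin g × Fin n × Fin n)
    (fun x => (dcCircuit R n g).val3 x)
    (fun b : Fin g => (b, p b.castSucc, p b.succ)) ?_ _ ?_).trans ?_
  · intro b b' h
    simp only [Prod.mk.injEq] at h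
    exact h.1
  · rintro ⟨b, i, j⟩
    change (if i = p b.castSucc ∧ j = p b.succ then 1 else 0) = _
    by_cases h : i = p b.castSucc ∧ j = p b.succ
    · obtain ⟨rfl, rfl⟩ := h
      simp
    · rw [if_neg h, if_neg]
      intro hmem
      rw [Finset.mem_image] at hmem
      obtain ⟨b', _, hb'⟩ := hmem
      simp only [Prod.mk.injEq] at hb'
      obtain ⟨rfl, rfl, rfl⟩ := hb'
      exact h ⟨rfl, rfl⟩
  · exact Finset.prod_congr rfl (fun b _ => dc_val3 R n g _)

lemma prod_getD_ofFn {M : Type} [Monoid M] : ∀ (N : ℕ) (L : List M), L.length ≤ N →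
    (List.ofFn (fun t : Fin N => L.getD t.val 1)).prod = L.prod := by
  intro N
  induction N with
  | zero =>
    intro L hL
    have : L = [] := List.eq_nil_of_length_eq_zero (by omega)
    subst this
    simp
  | succ N ih =>
    intro L hL
    rw [List.ofFn_succ, List.prod_cons]
    cases L with
    | nil => simp
    | cons a L' =>
      have := ih L' (by simpa using hL)
      simp only [List.prod_cons]
      rw [← this]
      rfl

lemma blocks_prod (hg : n ≤ g * g) :
    (List.ofFn (fun b : Fin g => blockMat R n g b.val)).prod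
      = (List.ofFn (fun t : Fin n =>
        (Matrix.of (fun i j => X (t, i, j)) :
          Matrix (Fin n) (Fin n) (MvPolynomial (Var n n) R)))).prod := by
  have h1 : (List.ofFn (fun b : Fin g => blockMat R n g b.val)).prod
      = (List.ofFn (fun t : Fin (g * g) => padMat R n t.val)).prod := by
    rw [List.ofFn_mul, List.prod_flatten, List.map_ofFn]
    rfl
  rw [h1]
  have h2 := prod_getD_ofFn (g * g) (List.ofFn (fun t : Fin n =>
        (Matrix.of (fun i j => X (t, i, j)) :
          Matrix (Fin n) (Fin n) (MvPolynomial (Var n n) R)))) (by simpa using hg)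
  rw [← h2]
  congr 2
  funext t
  unfold padMat
  by_cases h : t.val < n
  · simp [h]
  · rw [dif_neg h, List.getD_eq_default]
    simp
    omega

lemma dc_out (hn : 0 < n) (hg : n ≤ g * g) : (dcCircuit R n g).out = IMM R n n := by
  have h1 : (dcCircuit R n g).out
      = (List.ofFn (fun b : Fin g => blockMat R n g b.val)).prod ⟨0, hn⟩ ⟨0, hn⟩ := by
    rw [prod_ofFn_apply]
    unfold Circuit.out
    change ∑ p ∈ univ.filter (fun p : Fin (g + 1) → Fin n =>
      (p 0 : ℕ) = 0 ∧ (p (Fin.last g) : ℕ) = 0), MvPolynomial.C (1 : R) *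
        (dcCircuit R n g).val4 p = _
    rw [Finset.sum_filter]
    refine Finset.sum_congr rfl (fun p _ => ?_)
    by_cases h : (p 0 : ℕ) = 0 ∧ (p (Fin.last g) : ℕ) = 0
    · rw [if_pos h, if_pos ⟨Fin.ext h.1, Fin.ext h.2⟩, dc_val4]
      simp
    · rw [if_neg h, if_neg]
      rintro ⟨h1, h2⟩
      exact h ⟨by rw [h1], by rw [h2]⟩
  rw [h1, blocks_prod R n g hg, prod_ofFn_apply, IMM, Finset.sum_filter]
  refine Finset.sum_congr rfl (fun i _ => ?_)
  by_cases h : (i 0 : ℕ) = 0 ∧ (i (Fin.last n) : ℕ) = 0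
  · rw [if_pos h, if_pos ⟨Fin.ext h.1, Fin.ext h.2⟩]
    rfl
  · rw [if_neg h, if_neg]
    rintro ⟨h1, h2⟩
    exact h ⟨by rw [h1], by rw [h2]⟩

/-- number of genuine layers in a block -/
def blockDeg (b : ℕ) : ℕ := ∑ τ : Fin g, if b * g + τ.val < n then 1 else 0

lemma dc_homogeneous : (dcCircuit R n g).Homogeneous := by
  refine ⟨fun x => if x.1.1.val * g + x.1.2.val < n then 1 else 0,
    fun z => blockDeg n g z.1.val, ∑ b : Fin g, blockDeg n g b.val, ?_, ?_, ?_⟩
  · rintro ⟨⟨b, τ⟩, i, j⟩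
    change ∀ x : Var n n ⊕ Bool, x ∈ (if h : b.val * g + τ.val < n then
      {Sum.inl (⟨b.val * g + τ.val, h⟩, i, j)}
    else {Sum.inr (decide (i = j))} : Finset (Var n n ⊕ Bool)) →
      Sum.elim (fun _ => 1) (fun _ => 0)
        (Sum.elim (fun v => Sum.inl v) (fun b => Sum.inr (if b then (1 : R) else 0)) x
          : Var n n ⊕ R) = if b.val * g + τ.val < n then 1 else 0
    intro x hx
    by_cases h : b.val * g + τ.val < n
    · rw [dif_pos h, Finset.mem_singleton] at hx
      rw [hx, if_pos h]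
      rfl
    · rw [dif_neg h, Finset.mem_singleton] at hx
      rw [hx, if_neg h]
      rfl
  · rintro ⟨b, i, j⟩ ⟨b', p⟩ hy
    change (b', p) ∈ univ.filter (fun y : Fin g × (Fin (g + 1) → Fin n) =>
      y.1 = b ∧ y.2 0 = i ∧ y.2 (Fin.last g) = j) at hy
    rw [Finset.mem_filter] at hy
    obtain ⟨_, hb, _, _⟩ := hy
    simp only at hb
    subst hb
    change ∑ x : (Fin g × Fin g) × Fin n × Fin n,
      (if x.1.1 = b' ∧ x.2.1 = p x.1.2.castSucc ∧ x.2.2 = p x.1.2.succ then 1 else 0) *
        (if x.1.1.val * g + x.1.2.val < n then 1 else 0) = blockDeg n g b'.val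
    rw [Fintype.sum_prod_type, Fintype.sum_prod_type, Finset.sum_eq_single b']
    · unfold blockDeg
      refine Finset.sum_congr rfl (fun τ _ => ?_)
      rw [Fintype.sum_prod_type, Finset.sum_eq_single (p τ.castSucc),
        Finset.sum_eq_single (p τ.succ)]
      · simp
      · intro j' _ hj'
        simp [hj']
      · intro h
        exact absurd (Finset.mem_univ _) h
      · intro i' _ hi'
        refine Finset.sum_eq_zero (fun j' _ => ?_)
        simp [hi']
      · intro h
        exact absurd (Finset.mem_univ _) h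
    · intro b'' _ hb''
      refine Finset.sum_eq_zero (fun τ _ => Finset.sum_eq_zero (fun x _ => ?_))
      simp [hb'']
    · intro h
      exact absurd (Finset.mem_univ _) h
  · intro p _
    change ∑ z : Fin g × Fin n × Fin n,
      (if z.2.1 = p z.1.castSucc ∧ z.2.2 = p z.1.succ then 1 else 0) * blockDeg n g z.1.val
        = ∑ b : Fin g, blockDeg n g b.val
    rw [Fintype.sum_prod_type]
    refine Finset.sum_congr rfl (fun b _ => ?_)
    rw [Fintype.sum_prod_type, Finset.sum_eq_single (p b.castSucc),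
      Finset.sum_eq_single (p b.succ)]
    · simp
    · intro j' _ hj'
      simp [hj']
    · intro h
      exact absurd (Finset.mem_univ _) h
    · intro i' _ hi'
      refine Finset.sum_eq_zero (fun j' _ => ?_)
      simp [hi']
    · intro h
      exact absurd (Finset.mem_univ _) h

lemma dc_size : (dcCircuit R n g).size
    = (n * (n * n) + 2) + g * g * (n * n) + g * n ^ (g + 1) + g * (n * n) + n ^ (g + 1) + 1 := by
  unfold Circuit.size
  change Fintype.card (Var n n ⊕ Bool) + Fintype.card ((Fin g × Fin g) × Fin n × Fin n)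
    + Fintype.card (Fin g × (Fin (g + 1) → Fin n)) + Fintype.card (Fin g × Fin n × Fin n)
    + Fintype.card (Fin (g + 1) → Fin n) + 1 = _
  simp

end upper

/-- The upper bound. -/
theorem upper_bound (R : Type) [CommRing R] (n : ℕ) (hn : 2 ≤ n) :
    ∃ C : Circuit R (Var n n), C.Homogeneous ∧ C.out = IMM R n n ∧
      C.size ≤ n ^ (Nat.sqrt n + 8) := by
  set g := Nat.sqrt n + 1 with hg
  have hgn : n ≤ g * g := (Nat.lt_succ_sqrt n).le
  have hgle : g ≤ n := by
    have : Nat.sqrt n < n := Nat.sqrt_lt_self (by omega)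
    omega
  refine ⟨dcCircuit R n g, dc_homogeneous R n g, dc_out R n g (by omega) hgn, ?_⟩
  rw [dc_size]
  have hg2 : 2 ≤ g := by
    have : 1 ≤ Nat.sqrt n := Nat.le_sqrt.mpr (by omega)
    omega
  have hpow : ∀ a b : ℕ, a ≤ b → n ^ a ≤ n ^ b := fun a b hab => Nat.pow_le_pow_right (by omega) hab
  have e1 : n * (n * n) + 2 ≤ 2 * n ^ (g + 4) := by
    have h1 : n * (n * n) = n ^ 3 := by ring
    have h2 : n ^ 3 ≤ n ^ (g + 4) := hpow _ _ (by omega)
    have h3 : n ^ 1 ≤ n ^ (g + 4) := hpow _ _ (by omega)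
    rw [pow_one] at h3
    omega
  have e2 : g * g * (n * n) ≤ n ^ (g + 4) := by
    calc g * g * (n * n) ≤ n * n * (n * n) :=
          Nat.mul_le_mul_right _ (Nat.mul_le_mul hgle hgle)
      _ = n ^ 4 := by ring
      _ ≤ n ^ (g + 4) := hpow _ _ (by omega)
  have e3 : g * n ^ (g + 1) ≤ n ^ (g + 4) := by
    calc g * n ^ (g + 1) ≤ n * n ^ (g + 1) := Nat.mul_le_mul_right _ hgle
      _ = n ^ (g + 2) := by ring
      _ ≤ n ^ (g + 4) := hpow _ _ (by omega)
  have e4 : g * (n * n) ≤ n ^ (g + 4) := by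
    calc g * (n * n) ≤ n * (n * n) := Nat.mul_le_mul_right _ hgle
      _ = n ^ 3 := by ring
      _ ≤ n ^ (g + 4) := hpow _ _ (by omega)
  have e5 : n ^ (g + 1) ≤ n ^ (g + 4) := hpow _ _ (by omega)
  have e6 : 1 ≤ n ^ (g + 4) := Nat.one_le_pow _ _ (by omega)
  have e7 : 8 * n ^ (g + 4) ≤ n ^ (Nat.sqrt n + 8) := by
    have h1 : Nat.sqrt n + 8 = 3 + (g + 4) := by omega
    rw [h1, pow_add n 3]
    refine Nat.mul_le_mul_right _ ?_
    calc 8 = 2 ^ 3 := by norm_num
      _ ≤ n ^ 3 := Nat.pow_le_pow_left hn 3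
  omega

end Vale.P346
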