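import Vale.Agent.Lib.P346.Main
import Vale.Agent.Lib.P346.Upper

/-! The growth of `s_{F_2}(n)`. -/

namespace Vale.P346

open Finset MvPolynomial Filter Topology

/-- Lower bound for the number of product gates. -/
theorem lower_real {R : Type} [CommRing R] (φ : R →+* ZMod 2) (n : ℕ) (hn : 200000 ≤ n)
    (C : Circuit R (Var n n)) (hC : C.out = IMM R n n) :
    (2 : ℝ) ^ (√(n : ℝ) / 250) ≤ (Fintype.card C.G2 : ℝ) + Fintype.card C.G4 := by
  set q := Nat.sqrt ((n - 4) / 41472) with hq
  have h1 : q * q ≤ (n - 4) / 41472 := Nat.sqrt_le _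
  have h2 : (n - 4) / 41472 < (q + 1) * (q + 1) := Nat.lt_succ_sqrt _
  have h3 : 41472 * q ^ 2 + 4 ≤ n := by
    have : 41472 * (q * q) ≤ n - 4 := by
      calc 41472 * (q * q) ≤ 41472 * ((n - 4) / 41472) := Nat.mul_le_mul_left _ h1
        _ ≤ n - 4 := Nat.mul_div_le _ _
    have h4 : q ^ 2 = q * q := sq q
    omega
  have h4 : n < 41472 * ((q + 1) * (q + 1)) + 4 := by
    have := (Nat.div_lt_iff_lt_mul (by norm_num : 0 < 41472)).mp h2
    omega
  have hq2 : 2 ≤ q := by
    rw [hq]
    refine Nat.le_sqrt.mpr ?_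
    refine (Nat.le_div_iff_mul_le (by norm_num)).mpr ?_
    omega
  have h5 := lower_core φ q n (by omega) h3 C hC
  have h6 : (2 : ℝ) ^ (2 * q) ≤ 2 * ((Fintype.card C.G2 : ℝ) + Fintype.card C.G4) := by
    exact_mod_cast h5
  have hq2' : (2 : ℝ) ≤ q := by exact_mod_cast hq2
  -- `√n / 250 ≤ 2 q - 1`
  have h7 : √(n : ℝ) ≤ 204 * (q + 1) := by
    rw [Real.sqrt_le_left (by positivity)]
    have h8 : (n : ℝ) < 41472 * ((q + 1) * (q + 1)) + 4 := by exact_mod_cast h4
    nlinarith
  have h9 : √(n : ℝ) / 250 ≤ 2 * (q : ℝ) - 1 := by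
    rw [div_le_iff₀ (by norm_num)]
    nlinarith
  calc (2 : ℝ) ^ (√(n : ℝ) / 250) ≤ (2 : ℝ) ^ (2 * (q : ℝ) - 1) :=
        Real.rpow_le_rpow_of_exponent_le (by norm_num) h9
    _ = (2 : ℝ) ^ (2 * q) / 2 := by
        rw [Real.rpow_sub (by norm_num), Real.rpow_one]
        congr 1
        rw [← Real.rpow_natCast]
        push_cast
        rfl
    _ ≤ _ := by linarith

theorem lower_size {R : Type} [CommRing R] (φ : R →+* ZMod 2) (n : ℕ) (hn : 200000 ≤ n)
    (C : Circuit R (Var n n)) (hC : C.out = IMM R n n) :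
    (2 : ℝ) ^ (√(n : ℝ) / 250) ≤ (C.size : ℝ) := by
  refine (lower_real φ n hn C hC).trans ?_
  have : Fintype.card C.G2 + Fintype.card C.G4 ≤ C.size := by
    unfold Circuit.size
    omega
  exact_mod_cast this

theorem s_lower {R : Type} [CommRing R] (φ : R →+* ZMod 2) (n : ℕ) (hn : 200000 ≤ n) :
    (2 : ℝ) ^ (√(n : ℝ) / 250) ≤ (s R n : ℝ) := by
  have hne : {k | ∃ C : Circuit R (Var n n), C.Homogeneous ∧ C.out = IMM R n n ∧
      C.size = k}.Nonempty := by
    obtain ⟨C, h1, h2, _⟩ := upper_bound R n (by omega)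
    exact ⟨C.size, C, h1, h2, rfl⟩
  obtain ⟨C, _, h2, h3⟩ := Nat.sInf_mem hne
  have h4 : s R n = C.size := h3.symm
  rw [h4]
  exact lower_size φ n hn C h2

theorem s_upper (R : Type) [CommRing R] (n : ℕ) (hn : 2 ≤ n) :
    (s R n : ℝ) ≤ (n : ℝ) ^ (√(n : ℝ) + 8) := by
  obtain ⟨C, h1, h2, h3⟩ := upper_bound R n hn
  have h4 : s R n ≤ C.size := Nat.sInf_le ⟨C, h1, h2, rfl⟩
  have h5 : (s R n : ℝ) ≤ (n : ℝ) ^ (Nat.sqrt n + 8) := by exact_mod_cast h4.trans h3
  refine h5.trans ?_
  rw [← Real.rpow_natCast]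
  refine Real.rpow_le_rpow_of_exponent_le (by exact_mod_cast (by omega : 1 ≤ n)) ?_
  push_cast
  have : ((Nat.sqrt n : ℕ) : ℝ) ≤ √(n : ℝ) := Real.nat_sqrt_le_real_sqrt
  linarith

/-- `log log s_R(n) / log n → 1/2`. -/
theorem s_growth {R : Type} [CommRing R] (φ : R →+* ZMod 2) :
    Tendsto (fun n : ℕ => Real.log (Real.log (s R n)) / Real.log n) atTop (𝓝 (1 / 2)) := by
  have hlog : Tendsto (fun n : ℕ => Real.log (n : ℝ)) atTop atTop :=
    Real.tendsto_log_atTop.comp tendsto_natCast_atTop_atTop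
  -- lower function
  have hlow : Tendsto (fun n : ℕ => 1 / 2 + Real.log (Real.log 2 / 250) / Real.log n) atTop
      (𝓝 (1 / 2)) := by
    have h1 : Tendsto (fun n : ℕ => Real.log (Real.log 2 / 250) / Real.log n) atTop (𝓝 0) :=
      tendsto_const_nhds.div_atTop hlog
    simpa using tendsto_const_nhds.add h1
  -- upper function
  have hup : Tendsto (fun n : ℕ => 1 / 2 + (Real.log 2 / Real.log n +
      Real.log (Real.log n) / Real.log n)) atTop (𝓝 (1 / 2)) := by
    have h1 : Tendsto (fun n : ℕ => Real.log 2 / Real.log n) atTop (𝓝 0) :=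
      tendsto_const_nhds.div_atTop hlog
    have h2 : Tendsto (fun x : ℝ => Real.log x / x) atTop (𝓝 0) := by
      have := Real.isLittleO_log_id_atTop.tendsto_div_nhds_zero
      simpa using this
    have h3 : Tendsto (fun n : ℕ => Real.log (Real.log n) / Real.log n) atTop (𝓝 0) :=
      h2.comp hlog
    simpa using tendsto_const_nhds.add (h1.add h3)
  refine tendsto_of_tendsto_of_tendsto_of_le_of_le' hlow hup ?_ ?_
  · filter_upwards [eventually_ge_atTop 200000] with n hn
    have hn' : (200000 : ℝ) ≤ n := by exact_mod_cast hn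
    have hnpos : (0 : ℝ) < n := by linarith
    have hlogn : 0 < Real.log n := Real.log_pos (by linarith)
    have hlog2 : 0 < Real.log 2 := Real.log_pos (by norm_num)
    have h1 := s_lower φ n hn
    have h2 : √(n : ℝ) / 250 * Real.log 2 ≤ Real.log (s R n) := by
      rw [← Real.log_rpow (by norm_num)]
      exact Real.log_le_log (by positivity) h1
    have hsq : 0 < √(n : ℝ) := Real.sqrt_pos.mpr hnpos
    have h3 : Real.log (√(n : ℝ) / 250 * Real.log 2) ≤ Real.log (Real.log (s R n)) :=
      Real.log_le_log (by positivity) h2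
    have h4 : Real.log (√(n : ℝ) / 250 * Real.log 2)
        = 1 / 2 * Real.log n + Real.log (Real.log 2 / 250) := by
      have : √(n : ℝ) / 250 * Real.log 2 = √(n : ℝ) * (Real.log 2 / 250) := by ring
      rw [this, Real.log_mul hsq.ne' (by positivity), Real.log_sqrt hnpos.le]
      ring
    rw [le_div_iff₀ hlogn]
    calc (1 / 2 + Real.log (Real.log 2 / 250) / Real.log n) * Real.log n
        = 1 / 2 * Real.log n + Real.log (Real.log 2 / 250) := by field_simp
      _ ≤ _ := by rw [← h4]; exact h3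
  · filter_upwards [eventually_ge_atTop 200000] with n hn
    have hn' : (200000 : ℝ) ≤ n := by exact_mod_cast hn
    have hnpos : (0 : ℝ) < n := by linarith
    have hlogn : 0 < Real.log n := Real.log_pos (by linarith)
    have hlog2 : 0 < Real.log 2 := Real.log_pos (by norm_num)
    have hsq : 0 < √(n : ℝ) := Real.sqrt_pos.mpr hnpos
    have hsq8 : 8 ≤ √(n : ℝ) := by
      apply Real.le_sqrt_of_sq_le
      linarith
    have h1 := s_lower φ n hn
    have h1' : (1 : ℝ) < s R n := by
      refine lt_of_lt_of_le ?_ h1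
      exact Real.one_lt_rpow (by norm_num) (by positivity)
    have h2 : Real.log (s R n) ≤ (√(n : ℝ) + 8) * Real.log n := by
      rw [← Real.log_rpow hnpos]
      exact Real.log_le_log (by linarith) (s_upper R n (by omega))
    have h3 : Real.log (s R n) ≤ 2 * √(n : ℝ) * Real.log n := by
      refine h2.trans (mul_le_mul_of_nonneg_right (by linarith) hlogn.le)
    have h4 : Real.log (Real.log (s R n)) ≤ Real.log (2 * √(n : ℝ) * Real.log n) :=
      Real.log_le_log (Real.log_pos h1') h3
    have h5 : Real.log (2 * √(n : ℝ) * Real.log n)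
        = 1 / 2 * Real.log n + (Real.log 2 + Real.log (Real.log n)) := by
      rw [Real.log_mul (by positivity) hlogn.ne', Real.log_mul (by norm_num) hsq.ne',
        Real.log_sqrt hnpos.le]
      ring
    rw [div_le_iff₀ hlogn]
    calc Real.log (Real.log (s R n)) ≤ 1 / 2 * Real.log n + (Real.log 2 + Real.log (Real.log n)) := by
          rw [← h5]; exact h4
      _ = (1 / 2 + (Real.log 2 / Real.log n + Real.log (Real.log n) / Real.log n)) *
          Real.log n := by field_simp

end Vale.P346
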