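import Mathlib

/-! Razborov's approximation of a product (an AND) over `ZMod 2`. -/

namespace Vale.P346

open Finset

/-- Toggling argument: a nonzero functional on `(ZMod 2)^I` vanishes on at most half of the points. -/
lemma card_ker_le {I : Type} [Fintype I] [DecidableEq I] (z : I → ZMod 2) (hz : ∃ i, z i = 1) :
    2 * (univ.filter (fun c : I → ZMod 2 => ∑ i, c i * z i = 0)).card
      ≤ Fintype.card (I → ZMod 2) := by
  classical
  obtain ⟨i0, hi0⟩ := hz
  have h11 : (1 : ZMod 2) + 1 = 0 := rfl
  set A := univ.filter (fun c : I → ZMod 2 => ∑ i, c i * z i = 0) with hA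
  set Bs := univ.filter (fun c : I → ZMod 2 => ∑ i, c i * z i = 1) with hB
  have hmap : A.card ≤ Bs.card := by
    refine Finset.card_le_card_of_injOn (fun c => c + Pi.single i0 1) ?_ ?_
    · intro c hc
      have hc' : ∑ i, c i * z i = 0 := by
        have := Finset.mem_coe.mp hc
        rw [hA, Finset.mem_filter] at this
        exact this.2
      refine Finset.mem_coe.mpr ?_
      rw [hB, Finset.mem_filter]
      refine ⟨Finset.mem_univ _, ?_⟩
      have : ∑ i, (c + (Pi.single i0 (1 : ZMod 2) : I → ZMod 2)) i * z i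
          = ∑ i, c i * z i + ∑ i, (Pi.single i0 (1 : ZMod 2) : I → ZMod 2) i * z i := by
        rw [← Finset.sum_add_distrib]
        exact Finset.sum_congr rfl (fun i _ => by simp [add_mul])
      rw [this, hc']
      simp [Pi.single_apply, hi0]
    · intro a _ b _ hab
      exact add_right_cancel hab
  have hdisj : Disjoint A Bs := by
    rw [Finset.disjoint_filter]
    intro c _ h1 h2
    rw [h1] at h2
    exact absurd h2 (by decide)
  calc 2 * A.card ≤ A.card + Bs.card := by omega
    _ = (A ∪ Bs).card := (Finset.card_union_of_disjoint hdisj).symm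
    _ ≤ (univ : Finset (I → ZMod 2)).card := Finset.card_le_card (Finset.subset_univ _)
    _ = _ := Finset.card_univ

/-- The approximator. -/
def approx {I : Type} [Fintype I] {l : ℕ} (c : Fin l → I → ZMod 2) (y : I → ZMod 2) : ZMod 2 :=
  ∏ r : Fin l, (1 + ∑ i, c r i * (1 + y i))

/-- For a fixed input the approximator is wrong for at most a `2^{-l}` fraction of choices. -/
lemma approx_bad_le {I : Type} [Fintype I] [DecidableEq I] (l : ℕ) (y : I → ZMod 2) :
    2 ^ l * (univ.filter (fun c : Fin l → I → ZMod 2 => approx c y ≠ ∏ i, y i)).card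
      ≤ Fintype.card (Fin l → I → ZMod 2) := by
  classical
  by_cases hy : ∀ i, y i = 1
  · have : univ.filter (fun c : Fin l → I → ZMod 2 => approx c y ≠ ∏ i, y i) = ∅ := by
      rw [Finset.filter_eq_empty_iff]
      intro c _
      have h11 : (1 : ZMod 2) + 1 = 0 := rfl
      simp [approx, hy, h11]
    rw [this]
    simp
  · push Not at hy
    obtain ⟨i0, hi0⟩ := hy
    have hy0 : y i0 = 0 := by
      generalize y i0 = a at hi0 ⊢
      fin_cases a
      · rfl
      · exact absurd rfl hi0
    have hprod : ∏ i, y i = 0 := Finset.prod_eq_zero (Finset.mem_univ i0) hy0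
    set z : I → ZMod 2 := fun i => 1 + y i with hz
    have hz1 : z i0 = 1 := by simp [hz, hy0]
    have hsub : univ.filter (fun c : Fin l → I → ZMod 2 => approx c y ≠ ∏ i, y i)
        ⊆ Fintype.piFinset (fun _ : Fin l =>
          univ.filter (fun c : I → ZMod 2 => ∑ i, c i * z i = 0)) := by
      intro c hc
      rw [Finset.mem_filter, hprod] at hc
      rw [Fintype.mem_piFinset]
      intro r
      rw [Finset.mem_filter]
      refine ⟨Finset.mem_univ _, ?_⟩
      have h1 := hc.2
      rw [approx, Finset.prod_ne_zero_iff] at h1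
      have h2 := h1 r (Finset.mem_univ r)
      change 1 + ∑ i, c r i * z i ≠ 0 at h2
      generalize ∑ i, c r i * z i = a at h2 ⊢
      fin_cases a
      · rfl
      · exact absurd rfl h2
    have hker := card_ker_le z ⟨i0, hz1⟩
    calc 2 ^ l * (univ.filter (fun c : Fin l → I → ZMod 2 => approx c y ≠ ∏ i, y i)).card
        ≤ 2 ^ l * (Fintype.piFinset (fun _ : Fin l =>
          univ.filter (fun c : I → ZMod 2 => ∑ i, c i * z i = 0))).card :=
          Nat.mul_le_mul_left _ (Finset.card_le_card hsub)
      _ = (2 * (univ.filter (fun c : I → ZMod 2 => ∑ i, c i * z i = 0)).card) ^ l := by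
          rw [Fintype.card_piFinset]
          simp [mul_pow]
      _ ≤ (Fintype.card (I → ZMod 2)) ^ l := Nat.pow_le_pow_left hker l
      _ = Fintype.card (Fin l → I → ZMod 2) := by
          rw [Fintype.card_fun (α := Fin l), Fintype.card_fin]

/-- Averaging: there is a choice for which the approximator is wrong on at most a `2^{-l}` fraction
of the points. -/
theorem exists_approx {X I : Type} [Fintype X] [Fintype I] [DecidableEq I] (l : ℕ)
    (y : X → I → ZMod 2) :
    ∃ c : Fin l → I → ZMod 2,
      2 ^ l * (univ.filter (fun x : X => approx c (y x) ≠ ∏ i, y x i)).card ≤ Fintype.card X := by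
  classical
  by_contra hcon
  push Not at hcon
  have hne : (univ : Finset (Fin l → I → ZMod 2)).Nonempty := ⟨fun _ _ => 0, Finset.mem_univ _⟩
  have h1 : ∑ _c : Fin l → I → ZMod 2, Fintype.card X
      < ∑ c : Fin l → I → ZMod 2,
        2 ^ l * (univ.filter (fun x : X => approx c (y x) ≠ ∏ i, y x i)).card :=
    Finset.sum_lt_sum_of_nonempty hne (fun c _ => hcon c)
  have h2 : ∑ c : Fin l → I → ZMod 2,
        2 ^ l * (univ.filter (fun x : X => approx c (y x) ≠ ∏ i, y x i)).card
      = ∑ x : X, 2 ^ l *
        (univ.filter (fun c : Fin l → I → ZMod 2 => approx c (y x) ≠ ∏ i, y x i)).card := by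
    rw [← Finset.mul_sum, ← Finset.mul_sum]
    congr 1
    simp_rw [Finset.card_filter]
    rw [Finset.sum_comm]
  have h3 : ∑ x : X, 2 ^ l *
        (univ.filter (fun c : Fin l → I → ZMod 2 => approx c (y x) ≠ ∏ i, y x i)).card
      ≤ ∑ _x : X, Fintype.card (Fin l → I → ZMod 2) :=
    Finset.sum_le_sum (fun x _ => approx_bad_le l (y x))
  rw [h2] at h1
  have h4 := lt_of_lt_of_le h1 h3
  simp only [Finset.sum_const, smul_eq_mul, Finset.card_univ] at h4
  rw [mul_comm] at h4
  exact lt_irrefl _ h4

end Vale.P346
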