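import Vale.Agent.Lib.P346.Core

/-! The block space: many functions of degree `≤ k/2 - u` on the cube of dimension `k = 16u²`,
supported on the middle slices; and the tensor products of such functions. -/

namespace Vale.P346

open MvPolynomial Finset Module

/-! ### Interpolating families -/

lemma interp {F V X : Type} [Field F] [AddCommGroup V] [Module F V] [FiniteDimensional F V]
    (ev : V →ₗ[F] (X → F)) (hinj : Function.Injective ev) :
    ∀ n : ℕ, n ≤ finrank F V → ∃ (Z : Fin n → X) (g : Fin n → V),
      ∀ i j, ev (g i) (Z j) = if i = j then 1 else 0 := by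
  intro n
  induction n with
  | zero => intro _; exact ⟨Fin.elim0, Fin.elim0, fun i => i.elim0⟩
  | succ n ih =>
    intro hn
    obtain ⟨Z, g, hg⟩ := ih (by omega)
    -- a nonzero element vanishing at all the points
    let ρ : V →ₗ[F] (Fin n → F) := LinearMap.pi (fun j => (LinearMap.proj (Z j)) ∘ₗ ev)
    have hker : LinearMap.ker ρ ≠ ⊥ := by
      apply LinearMap.ker_ne_bot_of_finrank_lt
      rw [finrank_fin_fun]
      omega
    obtain ⟨w, hw, hw0⟩ := Submodule.exists_mem_ne_zero_of_ne_bot hker
    have hwZ : ∀ j, ev w (Z j) = 0 := by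
      intro j
      have := congrFun (LinearMap.mem_ker.mp hw) j
      simpa [ρ] using this
    have hevw : ev w ≠ 0 := fun h => hw0 (hinj (by rw [h, map_zero]))
    obtain ⟨x, hx⟩ := Function.ne_iff.mp hevw
    have hx' : ev w x ≠ 0 := hx
    set w' : V := (ev w x)⁻¹ • w with hw'
    have hw'x : ev w' x = 1 := by
      rw [hw', map_smul, Pi.smul_apply, smul_eq_mul, inv_mul_cancel₀ hx']
    have hw'Z : ∀ j, ev w' (Z j) = 0 := by
      intro j
      rw [hw', map_smul, Pi.smul_apply, hwZ j, smul_zero]
    refine ⟨Fin.snoc Z x, Fin.snoc (fun i => g i - ev (g i) x • w') w', ?_⟩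
    intro i j
    refine Fin.lastCases ?_ (fun i' => ?_) i
    · refine Fin.lastCases ?_ (fun j' => ?_) j
      · simp [hw'x]
      · have hne : Fin.last n ≠ j'.castSucc := (Fin.castSucc_lt_last j').ne'
        simp [hw'Z j', hne]
    · refine Fin.lastCases ?_ (fun j' => ?_) j
      · have hne : i'.castSucc ≠ Fin.last n := (Fin.castSucc_lt_last i').ne
        simp [hw'x, hne]
      · simp [hw'Z j', hg i' j']

/-! ### Multilinear polynomials as functions -/

section multilinear

variable {F : Type} [Field F] [Algebra (ZMod 2) F] {k : ℕ}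

/-- the multilinear polynomial function with coefficients `c` -/
noncomputable def mlin (F : Type) [Field F] [Algebra (ZMod 2) F] (k d : ℕ) :
    ({S : Finset (Fin k) // S.card ≤ d} → F) →ₗ[F] ((Fin k → ZMod 2) → F) where
  toFun c x := ∑ S : {S : Finset (Fin k) // S.card ≤ d}, c S *
    ∏ i ∈ S.1, algebraMap (ZMod 2) F (x i)
  map_add' c c' := by
    funext x
    simp [add_mul, Finset.sum_add_distrib]
  map_smul' a c := by
    funext x
    simp [Finset.mul_sum, mul_assoc]

lemma mlin_apply (d : ℕ) (c : {S : Finset (Fin k) // S.card ≤ d} → F) (x : Fin k → ZMod 2) :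
    mlin F k d c x = ∑ S : {S : Finset (Fin k) // S.card ≤ d}, c S *
      ∏ i ∈ S.1, algebraMap (ZMod 2) F (x i) := rfl

lemma hasDeg_mlin (d : ℕ) (c : {S : Finset (Fin k) // S.card ≤ d} → F) :
    HasDeg d (mlin F k d c) := by
  refine (hasDeg_sum univ (fun (S : {S : Finset (Fin k) // S.card ≤ d}) (x : Fin k → ZMod 2) =>
    c S * ∏ i ∈ S.1, algebraMap (ZMod 2) F (x i)) (fun S _ => ?_))
  have h1 := hasDeg_prod (F := F) S.1 (fun _ => 1)
    (fun i (x : Fin k → ZMod 2) => algebraMap (ZMod 2) F (x i)) (fun i _ => hasDeg_var i)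
  have h2 := (hasDeg_const 0 (c S)).mul h1
  refine h2.mono ?_
  simpa using S.2

lemma mlin_injective (d : ℕ) : Function.Injective (mlin F k d) := by
  classical
  rw [injective_iff_map_eq_zero]
  intro c hc
  have key : ∀ n : ℕ, ∀ S : {S : Finset (Fin k) // S.card ≤ d}, S.1.card = n → c S = 0 := by
    intro n
    induction n using Nat.strong_induction_on with
    | _ n ih =>
      intro S hS
      have h1 := congrFun hc (fun i => if i ∈ S.1 then 1 else 0)
      rw [mlin_apply, Pi.zero_apply] at h1
      rw [Finset.sum_eq_single S] at h1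
      · rw [Finset.prod_eq_one, mul_one] at h1
        · exact h1
        · intro i hi
          simp [hi]
      · intro T _ hTS
        by_cases hsub : T.1 ⊆ S.1
        · have hlt : T.1.card < n := by
            rw [← hS]
            refine Finset.card_lt_card (Finset.ssubset_iff_subset_ne.mpr ⟨hsub, ?_⟩)
            intro h
            exact hTS (Subtype.ext h)
          rw [ih _ hlt T rfl, zero_mul]
        · obtain ⟨i, hiT, hiS⟩ := Finset.not_subset.mp hsub
          rw [Finset.prod_eq_zero hiT, mul_zero]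
          simp [hiS]
      · intro h
        exact absurd (Finset.mem_univ S) h
  funext S
  exact key _ S rfl

/-- Functions of degree at most `d` vanishing on a given small set: an interpolating family. -/
theorem block_family (F : Type) [Field F] [Algebra (ZMod 2) F] (k d a : ℕ)
    (bad : Finset (Fin k → ZMod 2))
    (ha : a + bad.card ≤ Fintype.card {S : Finset (Fin k) // S.card ≤ d}) :
    ∃ (Z : Fin a → (Fin k → ZMod 2)) (g : Fin a → (Fin k → ZMod 2) → F),
      (∀ i j, g i (Z j) = if i = j then 1 else 0) ∧ (∀ i, HasDeg d (g i)) ∧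
      (∀ i, ∀ x ∈ bad, g i x = 0) := by
  classical
  let ρ : ({S : Finset (Fin k) // S.card ≤ d} → F) →ₗ[F] (bad → F) :=
    LinearMap.pi (fun x => (LinearMap.proj x.1) ∘ₗ (mlin F k d))
  let ev : LinearMap.ker ρ →ₗ[F] ((Fin k → ZMod 2) → F) := (mlin F k d) ∘ₗ (LinearMap.ker ρ).subtype
  have hinj : Function.Injective ev := (mlin_injective d).comp Subtype.val_injective
  have hfin : a ≤ finrank F (LinearMap.ker ρ) := by
    have h1 := LinearMap.finrank_range_add_finrank_ker ρ
    rw [finrank_fintype_fun_eq_card] at h1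
    have h2 : finrank F (LinearMap.range ρ) ≤ bad.card := by
      refine (Submodule.finrank_le _).trans ?_
      rw [finrank_fintype_fun_eq_card]
      simp
    omega
  obtain ⟨Z, g, hg⟩ := interp ev hinj a hfin
  refine ⟨Z, fun i => ev (g i), hg, fun i => hasDeg_mlin d _, ?_⟩
  intro i x hx
  have := congrFun (LinearMap.mem_ker.mp (g i).2) ⟨x, hx⟩
  simpa [ρ, ev] using this

end multilinear

/-! ### Tensor products -/

section tensor

variable {F : Type} [Field F] [Algebra (ZMod 2) F]

lemma HasDeg.comp {ι κ : Type} {d : ℕ} {f : (κ → ZMod 2) → F} (h : HasDeg d f) (e : κ → ι) :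
    HasDeg d (fun x : ι → ZMod 2 => f (fun i => x (e i))) := by
  obtain ⟨p, hp, hf⟩ := h
  refine ⟨rename e p, (totalDegree_rename_le e p).trans hp, fun x => ?_⟩
  rw [eval_rename]
  exact hf (fun i => x (e i))

/-- Given an interpolating family of size `a` on the `k`-cube, and a set `E` of fewer than `a ^ B`
points of the `(B × k)`-cube, there is a nonzero combination of the products vanishing on `E`. -/
theorem tensor_family {k a d : ℕ} (B : ℕ) (Z : Fin a → (Fin k → ZMod 2))
    (g : Fin a → (Fin k → ZMod 2) → F)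
    (hgZ : ∀ i j, g i (Z j) = if i = j then 1 else 0) (hd : ∀ i, HasDeg d (g i))
    (E : Finset (Fin B × Fin k → ZMod 2)) (hE : E.card < a ^ B) :
    ∃ G : (Fin B × Fin k → ZMod 2) → F, HasDeg (B * d) G ∧ (∃ z, G z ≠ 0) ∧
      (∀ x ∈ E, G x = 0) ∧
      (∀ x, G x ≠ 0 → ∀ b, ∃ i, g i (fun j => x (b, j)) ≠ 0) := by
  classical
  let gI : (Fin B → Fin a) → (Fin B × Fin k → ZMod 2) → F :=
    fun I x => ∏ b, g (I b) (fun j => x (b, j))
  let T : ((Fin B → Fin a) → F) →ₗ[F] ((Fin B × Fin k → ZMod 2) → F) :=
    { toFun := fun c x => ∑ I, c I * gI I x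
      map_add' := by
        intro c c'
        funext x
        simp [add_mul, Finset.sum_add_distrib]
      map_smul' := by
        intro r c
        funext x
        simp [Finset.mul_sum, mul_assoc] }
  let ρ : ((Fin B → Fin a) → F) →ₗ[F] (E → F) :=
    LinearMap.pi (fun x => (LinearMap.proj x.1) ∘ₗ T)
  have hker : LinearMap.ker ρ ≠ ⊥ := by
    apply LinearMap.ker_ne_bot_of_finrank_lt
    rw [finrank_fintype_fun_eq_card, finrank_fintype_fun_eq_card]
    simpa using hE
  obtain ⟨c, hc, hc0⟩ := Submodule.exists_mem_ne_zero_of_ne_bot hker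
  refine ⟨T c, ?_, ?_, ?_, ?_⟩
  · refine hasDeg_sum univ (fun I x => c I * gI I x) (fun I _ => ?_)
    have h1 := hasDeg_prod (F := F) (univ : Finset (Fin B)) (fun _ => d)
      (fun b (x : Fin B × Fin k → ZMod 2) => g (I b) (fun j => x (b, j)))
      (fun b _ => (hd (I b)).comp (fun j => (b, j)))
    have h2 := (hasDeg_const 0 (c I)).mul h1
    simpa using h2
  · obtain ⟨I, hI⟩ := Function.ne_iff.mp hc0
    refine ⟨fun p => Z (I p.1) p.2, ?_⟩
    have h1 : T c (fun p => Z (I p.1) p.2) = c I := by
      change ∑ J, c J * gI J (fun p => Z (I p.1) p.2) = c I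
      rw [Finset.sum_eq_single I]
      · have : gI I (fun p => Z (I p.1) p.2) = 1 := by
          refine Finset.prod_eq_one (fun b _ => ?_)
          change g (I b) (Z (I b)) = 1
          rw [hgZ, if_pos rfl]
        rw [this, mul_one]
      · intro J _ hJI
        obtain ⟨b, hb⟩ := Function.ne_iff.mp hJI
        have : gI J (fun p => Z (I p.1) p.2) = 0 := by
          refine Finset.prod_eq_zero (Finset.mem_univ b) ?_
          change g (J b) (Z (I b)) = 0
          rw [hgZ, if_neg hb]
        rw [this, mul_zero]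
      · intro h
        exact absurd (Finset.mem_univ I) h
    rw [h1]
    exact hI
  · intro x hx
    have := congrFun (LinearMap.mem_ker.mp hc) ⟨x, hx⟩
    simpa [ρ] using this
  · intro x hx b
    have h1 : ∑ J, c J * gI J x ≠ 0 := hx
    obtain ⟨J, _, hJ⟩ := Finset.exists_ne_zero_of_sum_ne_zero h1
    have h2 : gI J x ≠ 0 := right_ne_zero_of_mul hJ
    exact ⟨J b, Finset.prod_ne_zero_iff.mp h2 b (Finset.mem_univ b)⟩

end tensor

end Vale.P346
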