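import Mathlib

/-! Functions on the cube `ι → ZMod 2` with values in a field of characteristic two, and their
degrees.  The key duality lemma: if `P` has degree `≤ D` and agrees with `ω^{|x|}` on the support
of a function `g` of degree `≤ e`, where `e + D + m/2 < m`, then `g = 0`. -/

namespace Vale.P346

open MvPolynomial Finset

variable {ι : Type} [Fintype ι] {F : Type} [Field F] [Algebra (ZMod 2) F]

omit [Fintype ι] in
lemma two_eq_zero : (2 : F) = 0 := by
  have h : algebraMap (ZMod 2) F 2 = (2 : F) := map_ofNat (algebraMap (ZMod 2) F) 2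
  have h' : (2 : ZMod 2) = 0 := rfl
  rw [h', map_zero] at h
  exact h.symm

/-- `f` is given by a polynomial of total degree at most `d`. -/
def HasDeg (d : ℕ) (f : (ι → ZMod 2) → F) : Prop :=
  ∃ p : MvPolynomial ι F, p.totalDegree ≤ d ∧
    ∀ x : ι → ZMod 2, eval (fun i => algebraMap (ZMod 2) F (x i)) p = f x

omit [Fintype ι] in
lemma HasDeg.mono {d e : ℕ} {f : (ι → ZMod 2) → F} (h : HasDeg d f) (hde : d ≤ e) :
    HasDeg e f := by
  obtain ⟨p, hp, hf⟩ := h
  exact ⟨p, hp.trans hde, hf⟩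

omit [Fintype ι] in
lemma HasDeg.congr {d : ℕ} {f g : (ι → ZMod 2) → F} (h : HasDeg d f) (hfg : ∀ x, f x = g x) :
    HasDeg d g := by
  obtain ⟨p, hp, hf⟩ := h
  exact ⟨p, hp, fun x => (hf x).trans (hfg x)⟩

omit [Fintype ι] in
lemma hasDeg_const (d : ℕ) (c : F) : HasDeg d (fun _ : ι → ZMod 2 => c) :=
  ⟨C c, by simp, fun x => by simp⟩

omit [Fintype ι] in
lemma hasDeg_var (i : ι) : HasDeg (F := F) 1 (fun x : ι → ZMod 2 => algebraMap (ZMod 2) F (x i)) :=
  ⟨X i, by simp, fun x => by simp⟩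

omit [Fintype ι] in
lemma HasDeg.add {d : ℕ} {f g : (ι → ZMod 2) → F} (hf : HasDeg d f) (hg : HasDeg d g) :
    HasDeg d (fun x => f x + g x) := by
  obtain ⟨p, hp, hf⟩ := hf
  obtain ⟨q, hq, hg⟩ := hg
  exact ⟨p + q, (totalDegree_add p q).trans (max_le hp hq), fun x => by simp [hf, hg]⟩

omit [Fintype ι] in
lemma HasDeg.mul {d e : ℕ} {f g : (ι → ZMod 2) → F} (hf : HasDeg d f) (hg : HasDeg e g) :
    HasDeg (d + e) (fun x => f x * g x) := by
  obtain ⟨p, hp, hf⟩ := hf
  obtain ⟨q, hq, hg⟩ := hg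
  exact ⟨p * q, (totalDegree_mul p q).trans (add_le_add hp hq), fun x => by simp [hf, hg]⟩

omit [Fintype ι] in
lemma hasDeg_sum {α : Type} (s : Finset α) {d : ℕ} (f : α → (ι → ZMod 2) → F)
    (hf : ∀ a ∈ s, HasDeg d (f a)) : HasDeg d (fun x => ∑ a ∈ s, f a x) := by
  classical
  induction s using Finset.induction_on with
  | empty => simpa using hasDeg_const d (0 : F)
  | insert a s ha ih =>
    have h1 := (hf a (Finset.mem_insert_self a s)).add
      (ih (fun b hb => hf b (Finset.mem_insert_of_mem hb)))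
    refine h1.congr (fun x => ?_)
    rw [Finset.sum_insert ha]

omit [Fintype ι] in
lemma hasDeg_prod {α : Type} (s : Finset α) (d : α → ℕ) (f : α → (ι → ZMod 2) → F)
    (hf : ∀ a ∈ s, HasDeg (d a) (f a)) :
    HasDeg (∑ a ∈ s, d a) (fun x => ∏ a ∈ s, f a x) := by
  classical
  induction s using Finset.induction_on with
  | empty => simpa using hasDeg_const 0 (1 : F)
  | insert a s ha ih =>
    have h1 := (hf a (Finset.mem_insert_self a s)).mul
      (ih (fun b hb => hf b (Finset.mem_insert_of_mem hb)))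
    rw [Finset.sum_insert ha]
    refine h1.congr (fun x => ?_)
    rw [Finset.prod_insert ha]

/-- A function of degree less than the number of variables sums to zero over the cube. -/
lemma HasDeg.sum_eq_zero [DecidableEq ι] {d : ℕ} {f : (ι → ZMod 2) → F} (hf : HasDeg d f)
    (hd : d < Fintype.card ι) : ∑ x : ι → ZMod 2, f x = 0 := by
  classical
  obtain ⟨p, hp, hf⟩ := hf
  have h2 : (2 : F) = 0 := two_eq_zero
  have : ∀ x : ι → ZMod 2, f x = ∑ s ∈ p.support, p.coeff s *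
      ∏ i : ι, (algebraMap (ZMod 2) F (x i)) ^ s i := by
    intro x
    rw [← hf x, eval_eq']
  simp_rw [this]
  rw [Finset.sum_comm]
  refine Finset.sum_eq_zero (fun s hs => ?_)
  rw [← Finset.mul_sum]
  have hdeg : (s.sum fun _ e => e) ≤ d := (le_totalDegree hs).trans hp
  have hex : ∃ i, s i = 0 := by
    by_contra hcon
    push Not at hcon
    have h1 : Fintype.card ι ≤ s.sum fun _ e => e := by
      rw [Finsupp.sum_fintype _ _ (by simp)]
      calc Fintype.card ι = ∑ _i : ι, 1 := by simp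
        _ ≤ ∑ i : ι, s i := Finset.sum_le_sum (fun i _ => Nat.one_le_iff_ne_zero.mpr (hcon i))
    omega
  obtain ⟨i, hi⟩ := hex
  have : ∑ x : ι → ZMod 2, ∏ i : ι, (algebraMap (ZMod 2) F (x i)) ^ s i
      = ∏ i : ι, ∑ y : ZMod 2, (algebraMap (ZMod 2) F y) ^ s i := by
    rw [Finset.prod_univ_sum]
    simp
  rw [this, Finset.prod_eq_zero (Finset.mem_univ i), mul_zero]
  rw [hi]
  simp [h2]

/-- weight of a point of the cube -/
def wt (x : ι → ZMod 2) : ℕ := ∑ i, (x i).val

lemma zmod2_cases (a : ZMod 2) : a = 0 ∨ a = 1 := by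
  fin_cases a
  · left; rfl
  · right; rfl

omit [Algebra (ZMod 2) F] in
lemma omega_ne_zero {ω : F} (hω : ω ^ 2 + ω + 1 = 0) : ω ≠ 0 := by
  rintro rfl
  simp at hω

/-- `ω ^ x` for a bit `x`, as an affine function. -/
lemma omega_pow_bit {ω : F} (a : ZMod 2) :
    ω ^ a.val = 1 + (ω - 1) * algebraMap (ZMod 2) F a := by
  rcases zmod2_cases a with rfl | rfl
  · simp
  · have : (1 : ZMod 2).val = 1 := rfl
    simp [this]

lemma omega_inv_pow_bit {ω : F} (a : ZMod 2) :
    ω⁻¹ ^ a.val = 1 + (ω⁻¹ - 1) * algebraMap (ZMod 2) F a := omega_pow_bit a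

omit [Fintype ι] in
lemma hasDeg_bit (ω : F) (i : ι) : HasDeg (F := F) 1 (fun x : ι → ZMod 2 => ω ^ (x i).val) := by
  have h : HasDeg (F := F) 1 (fun x : ι → ZMod 2 => 1 + (ω - 1) * algebraMap (ZMod 2) F (x i)) := by
    have h1 := (hasDeg_const 0 (ω - 1)).mul (hasDeg_var (F := F) i)
    exact (hasDeg_const 1 (1:F)).add (by simpa using h1)
  exact h.congr (fun x => (omega_pow_bit (x i)).symm)

omit [Fintype ι] in
lemma hasDeg_bits (ω : F) (S : Finset ι) :
    HasDeg (F := F) S.card (fun x : ι → ZMod 2 => ∏ i ∈ S, ω ^ (x i).val) := by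
  have := hasDeg_prod (F := F) S (fun _ => 1) (fun i (x : ι → ZMod 2) => ω ^ (x i).val)
    (fun i _ => hasDeg_bit ω i)
  simpa using this

omit [Algebra (ZMod 2) F] in
/-- If all character sums of `g` vanish then `g = 0`. -/
lemma eq_zero_of_sums [DecidableEq ι] {ω : F} (hω1 : ω ≠ 1) (g : (ι → ZMod 2) → F)
    (h : ∀ S : Finset ι, ∑ x : ι → ZMod 2, g x * ∏ i ∈ S, ω ^ (x i).val = 0) :
    ∀ z, g z = 0 := by
  classical
  intro z
  have hne : ω - 1 ≠ 0 := sub_ne_zero.mpr hω1
  -- the delta function at z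
  have key : ∀ x : ι → ZMod 2, ∏ i : ι, ((if z i = 1 then -(ω-1)⁻¹ else 1 + (ω-1)⁻¹)
      + (if z i = 1 then (ω - 1)⁻¹ else -(ω-1)⁻¹) * ω ^ (x i).val)
      = if x = z then 1 else 0 := by
    intro x
    have hterm : ∀ i, ((if z i = 1 then -(ω-1)⁻¹ else 1 + (ω-1)⁻¹)
      + (if z i = 1 then (ω - 1)⁻¹ else -(ω-1)⁻¹) * ω ^ (x i).val)
      = if x i = z i then 1 else 0 := by
      intro i
      have h10 : (1 : ZMod 2) ≠ 0 := by decide
      have h01 : (0 : ZMod 2) ≠ 1 := by decide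
      have hv1 : (1 : ZMod 2).val = 1 := rfl
      rcases zmod2_cases (x i) with hx | hx <;> rcases zmod2_cases (z i) with hz | hz <;>
        simp [hx, hz, h10, h01, hv1] <;> field_simp <;> ring
    rw [Finset.prod_congr rfl (fun i _ => hterm i)]
    by_cases hxz : x = z
    · subst hxz; simp
    · rw [if_neg hxz]
      obtain ⟨i, hi⟩ := Function.ne_iff.mp hxz
      exact Finset.prod_eq_zero (Finset.mem_univ i) (by simp [hi])
  have h1 : g z = ∑ x : ι → ZMod 2, g x * (if x = z then 1 else 0) := by simp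
  rw [h1]
  simp_rw [← key, Finset.prod_add, Finset.mul_sum]
  rw [Finset.sum_comm]
  refine Finset.sum_eq_zero (fun T hT => ?_)
  have h2 : ∀ x : ι → ZMod 2, g x * ((∏ i ∈ T, (if z i = 1 then -(ω-1)⁻¹ else 1 + (ω-1)⁻¹)) *
      ∏ i ∈ univ \ T, ((if z i = 1 then (ω - 1)⁻¹ else -(ω-1)⁻¹) * ω ^ (x i).val))
      = ((∏ i ∈ T, (if z i = 1 then -(ω-1)⁻¹ else 1 + (ω-1)⁻¹)) *
        ∏ i ∈ univ \ T, (if z i = 1 then (ω - 1)⁻¹ else -(ω-1)⁻¹)) *
        (g x * ∏ i ∈ univ \ T, ω ^ (x i).val) := by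
    intro x
    rw [Finset.prod_mul_distrib]
    ring
  rw [Finset.sum_congr rfl (fun x _ => h2 x), ← Finset.mul_sum, h, mul_zero]

/-- The core duality lemma. -/
theorem core {ω : F} (hω : ω ^ 2 + ω + 1 = 0) (g P : (ι → ZMod 2) → F) (e D : ℕ)
    (hg : HasDeg e g) (hP : HasDeg D P)
    (hsupp : ∀ x, g x ≠ 0 → P x = ω ^ wt x)
    (hlt : e + D + Fintype.card ι / 2 < Fintype.card ι) : ∀ x, g x = 0 := by
  classical
  have h2 : (2 : F) = 0 := two_eq_zero
  have h0 := omega_ne_zero hω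
  have h1 : ω ≠ 1 := by
    rintro rfl
    have : (1 : F) = 0 := by
      have h3 : (1:F)^2 + 1 + 1 = 2 + 1 := by norm_num
      rw [h3, h2] at hω
      simp at hω
    exact one_ne_zero this
  refine eq_zero_of_sums h1 g (fun S => ?_)
  by_cases hS : 2 * S.card ≤ Fintype.card ι
  · exact (hg.mul (hasDeg_bits ω S)).sum_eq_zero (by omega)
  · push Not at hS
    have hcard : (univ \ S).card = Fintype.card ι - S.card := by
      rw [Finset.card_sdiff_of_subset (Finset.subset_univ S), Finset.card_univ]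
    have hle : S.card ≤ Fintype.card ι := Finset.card_le_univ S
    have h3 : ∀ x : ι → ZMod 2, g x * ∏ i ∈ S, ω ^ (x i).val
        = g x * P x * ∏ i ∈ univ \ S, ω⁻¹ ^ (x i).val := by
      intro x
      by_cases hgx : g x = 0
      · simp [hgx]
      · rw [hsupp x hgx]
        have h4 : ω ^ wt x = (∏ i ∈ S, ω ^ (x i).val) * ∏ i ∈ univ \ S, ω ^ (x i).val := by
          rw [wt, ← Finset.prod_pow_eq_pow_sum, mul_comm,
            Finset.prod_sdiff (Finset.subset_univ S)]
        rw [h4]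
        have h5 : (∏ i ∈ univ \ S, ω ^ (x i).val) * ∏ i ∈ univ \ S, ω⁻¹ ^ (x i).val = 1 := by
          rw [← Finset.prod_mul_distrib]
          refine Finset.prod_eq_one (fun i _ => ?_)
          rw [← mul_pow, mul_inv_cancel₀ h0, one_pow]
        calc g x * ∏ i ∈ S, ω ^ (x i).val = g x * (∏ i ∈ S, ω ^ (x i).val) * 1 := by ring
          _ = _ := by rw [← h5]; ring
    rw [Finset.sum_congr rfl (fun x _ => h3 x)]
    refine ((hg.mul hP).mul (hasDeg_bits ω⁻¹ (univ \ S))).sum_eq_zero ?_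
    omega

end Vale.P346
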