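import Vale.Agent.Lib.P346.Block

/-! Counting estimates for the cube of dimension `k = 16 u²`. -/

namespace Vale.P346

open Finset

lemma sum_zmod2 {M : Type} [AddCommMonoid M] (f : ZMod 2 → M) : ∑ a : ZMod 2, f a = f 0 + f 1 := by
  exact Fin.sum_univ_two f

lemma second_moment (k : ℕ) :
    (∑ x : Fin k → ZMod 2, (2 * (wt x : ℤ) - (k : ℤ)) ^ 2 : ℤ) = (k : ℤ) * 2 ^ k := by
  induction k with
  | zero => simp [wt]
  | succ k ih =>
    rw [← (Fin.consEquiv (fun _ : Fin (k + 1) => ZMod 2)).sum_comp, Fintype.sum_prod_type,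
      sum_zmod2]
    have hw : ∀ (a : ZMod 2) (y : Fin k → ZMod 2),
        wt ((Fin.consEquiv (fun _ : Fin (k + 1) => ZMod 2)) (a, y)) = a.val + wt y := by
      intro a y
      simp [wt, Fin.consEquiv, Fin.sum_univ_succ]
    rw [← Finset.sum_add_distrib]
    have h1 : ∀ y : Fin k → ZMod 2,
        (2 * (wt ((Fin.consEquiv (fun _ : Fin (k + 1) => ZMod 2)) ((0 : ZMod 2), y)) : ℤ)
            - ((k + 1 : ℕ) : ℤ)) ^ 2
          + (2 * (wt ((Fin.consEquiv (fun _ : Fin (k + 1) => ZMod 2)) ((1 : ZMod 2), y)) : ℤ)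
            - ((k + 1 : ℕ) : ℤ)) ^ 2
        = 2 * (2 * (wt y : ℤ) - k) ^ 2 + 2 := by
      intro y
      rw [hw, hw]
      have h0 : (0 : ZMod 2).val = 0 := rfl
      have h1 : (1 : ZMod 2).val = 1 := rfl
      rw [h0, h1]
      push_cast
      ring
    refine (Finset.sum_congr rfl (fun y _ => h1 y)).trans ?_
    rw [Finset.sum_add_distrib, ← Finset.mul_sum, ih]
    simp
    ring

/-- Chebyshev's inequality for the window `|wt x - 8u²| ≤ 6u`. -/
lemma bad_card (u : ℕ) (hu : 0 < u) :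
    9 * (univ.filter (fun x : Fin (16 * u ^ 2) → ZMod 2 =>
      ¬ (8 * u ^ 2 ≤ wt x + 6 * u ∧ wt x ≤ 8 * u ^ 2 + 6 * u))).card ≤ 2 ^ (16 * u ^ 2) := by
  classical
  set k := 16 * u ^ 2 with hk
  set bad := univ.filter (fun x : Fin k → ZMod 2 =>
      ¬ (8 * u ^ 2 ≤ wt x + 6 * u ∧ wt x ≤ 8 * u ^ 2 + 6 * u)) with hbad
  have h1 : ∀ x ∈ bad, ((9 * k : ℕ) : ℤ) ≤ (2 * (wt x : ℤ) - k) ^ 2 := by
    intro x hx
    have hx' := (Finset.mem_filter.mp hx).2
    have hk' : (k : ℤ) = 16 * (u : ℤ) ^ 2 := by rw [hk]; push_cast; ring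
    rw [not_and_or] at hx'
    push_cast
    rcases hx' with h | h
    · push Not at h
      have h' : (wt x : ℤ) + 6 * u < 8 * (u : ℤ) ^ 2 := by exact_mod_cast h
      nlinarith [h', (Nat.cast_nonneg u : (0 : ℤ) ≤ u)]
    · push Not at h
      have h' : 8 * (u : ℤ) ^ 2 + 6 * u < (wt x : ℤ) := by exact_mod_cast h
      nlinarith [h', (Nat.cast_nonneg u : (0 : ℤ) ≤ u)]
  have h2 : (bad.card : ℤ) * (9 * k : ℕ) ≤ k * 2 ^ k := by
    rw [← second_moment k]
    calc (bad.card : ℤ) * (9 * k : ℕ) = ∑ _x ∈ bad, ((9 * k : ℕ) : ℤ) := by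
          rw [Finset.sum_const, nsmul_eq_mul]
      _ ≤ ∑ x ∈ bad, (2 * (wt x : ℤ) - k) ^ 2 := Finset.sum_le_sum h1
      _ ≤ ∑ x : Fin k → ZMod 2, (2 * (wt x : ℤ) - k) ^ 2 :=
          Finset.sum_le_sum_of_subset_of_nonneg (Finset.subset_univ _) (fun _ _ _ => sq_nonneg _)
  have hkpos : 0 < k := by positivity
  have h3 : k * (9 * bad.card) ≤ k * 2 ^ k := by
    zify
    push_cast at h2
    linarith
  exact Nat.le_of_mul_le_mul_left h3 hkpos

lemma centralBinom_sq_le (m : ℕ) : (2 * m + 1) * (Nat.centralBinom m) ^ 2 ≤ 16 ^ m := by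
  induction m with
  | zero => simp
  | succ m ih =>
    have h := Nat.succ_mul_centralBinom_succ m
    -- (m+1) c' = 2 (2m+1) c
    have h1 : (m + 1) ^ 2 * ((2 * (m + 1) + 1) * (Nat.centralBinom (m + 1)) ^ 2)
        = 4 * (2 * m + 3) * (2 * m + 1) * ((2 * m + 1) * (Nat.centralBinom m) ^ 2) := by
      calc (m + 1) ^ 2 * ((2 * (m + 1) + 1) * (Nat.centralBinom (m + 1)) ^ 2)
          = (2 * m + 3) * ((m + 1) * Nat.centralBinom (m + 1)) ^ 2 := by ring
        _ = (2 * m + 3) * (2 * (2 * m + 1) * Nat.centralBinom m) ^ 2 := by rw [h]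
        _ = _ := by ring
    have h2 : (m + 1) ^ 2 * ((2 * (m + 1) + 1) * (Nat.centralBinom (m + 1)) ^ 2)
        ≤ (m + 1) ^ 2 * 16 ^ (m + 1) := by
      rw [h1]
      calc 4 * (2 * m + 3) * (2 * m + 1) * ((2 * m + 1) * (Nat.centralBinom m) ^ 2)
          ≤ 4 * (2 * m + 3) * (2 * m + 1) * 16 ^ m := Nat.mul_le_mul_left _ ih
        _ ≤ (m + 1) ^ 2 * 16 * 16 ^ m := by
            refine Nat.mul_le_mul_right _ ?_
            nlinarith
        _ = (m + 1) ^ 2 * 16 ^ (m + 1) := by ring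
    exact Nat.le_of_mul_le_mul_left h2 (by positivity)

lemma card_small_sets (k d : ℕ) : Fintype.card {S : Finset (Fin k) // S.card ≤ d}
    = ∑ i ∈ range (d + 1), k.choose i := by
  classical
  rw [Fintype.card_subtype]
  have h1 : (univ.filter (fun S : Finset (Fin k) => S.card ≤ d))
      = (range (d + 1)).biUnion (fun i => (univ : Finset (Fin k)).powersetCard i) := by
    ext S
    simp [Finset.mem_powersetCard]
  rw [h1, Finset.card_biUnion]
  · refine Finset.sum_congr rfl (fun i _ => ?_)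
    rw [Finset.card_powersetCard, Finset.card_univ, Fintype.card_fin]
  · intro i _ j _ hij
    rw [Function.onFun, Finset.disjoint_left]
    intro S hS hS'
    rw [Finset.mem_powersetCard] at hS hS'
    exact hij (hS.2.symm.trans hS'.2)

lemma small_sets_ge (u : ℕ) (hu : 0 < u) :
    2 ^ (16 * u ^ 2) ≤ 4 * ∑ i ∈ range (8 * u ^ 2 - u + 1), (16 * u ^ 2).choose i := by
  set m := 8 * u ^ 2 with hm
  have hk : 16 * u ^ 2 = 2 * m := by rw [hm]; ring
  have hum : u ≤ m := by rw [hm]; nlinarith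
  rw [hk]
  set f : ℕ → ℕ := fun i => (2 * m).choose i with hf
  have htot : ∑ i ∈ range (2 * m + 1), f i = 2 ^ (2 * m) := Nat.sum_range_choose (2 * m)
  -- split the range
  have hsplit : ∑ i ∈ range (2 * m + 1), f i
      = ∑ i ∈ range (m - u + 1), f i + ∑ i ∈ range (2 * u - 1), f (m - u + 1 + i)
        + ∑ i ∈ range (m - u + 1), f (m + u + i) := by
    have e1 : 2 * m + 1 = (m - u + 1 + (2 * u - 1)) + (m - u + 1) := by omega
    rw [e1, Finset.sum_range_add, Finset.sum_range_add]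
    congr 1
    refine Finset.sum_congr rfl (fun i _ => ?_)
    congr 1
    omega
  have hsymm : ∑ i ∈ range (m - u + 1), f (m + u + i) = ∑ i ∈ range (m - u + 1), f i := by
    rw [← Finset.sum_range_reflect (fun i => f i) (m - u + 1)]
    refine Finset.sum_congr rfl (fun i hi => ?_)
    rw [Finset.mem_range] at hi
    rw [hf]
    simp only
    rw [← Nat.choose_symm (by omega : m + u + i ≤ 2 * m)]
    congr 1
    omega
  have hmid : ∑ i ∈ range (2 * u - 1), f (m - u + 1 + i) ≤ (2 * u - 1) * Nat.centralBinom m := by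
    calc ∑ i ∈ range (2 * u - 1), f (m - u + 1 + i)
        ≤ ∑ _i ∈ range (2 * u - 1), Nat.centralBinom m :=
          Finset.sum_le_sum (fun i _ => Nat.choose_le_centralBinom _ _)
      _ = (2 * u - 1) * Nat.centralBinom m := by simp
  -- 4 u c ≤ 4^m
  have hcb : 4 * u * Nat.centralBinom m ≤ 2 ^ (2 * m) := by
    have h1 : (4 * u * Nat.centralBinom m) ^ 2 ≤ (2 ^ (2 * m)) ^ 2 := by
      calc (4 * u * Nat.centralBinom m) ^ 2 = (2 * m) * (Nat.centralBinom m) ^ 2 := by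
            rw [hm]; ring
        _ ≤ (2 * m + 1) * (Nat.centralBinom m) ^ 2 := Nat.mul_le_mul_right _ (by omega)
        _ ≤ 16 ^ m := centralBinom_sq_le m
        _ = (2 ^ (2 * m)) ^ 2 := by
            rw [← pow_mul, show (16 : ℕ) = 2 ^ 4 by norm_num, ← pow_mul]
            congr 1
            ring
    exact (Nat.pow_le_pow_iff_left (by norm_num)).mp h1
  have hmid2 : 2 * ∑ i ∈ range (2 * u - 1), f (m - u + 1 + i) ≤ 2 ^ (2 * m) := by
    calc 2 * ∑ i ∈ range (2 * u - 1), f (m - u + 1 + i)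
        ≤ 2 * ((2 * u - 1) * Nat.centralBinom m) := Nat.mul_le_mul_left _ hmid
      _ ≤ 2 * ((2 * u) * Nat.centralBinom m) := by
          refine Nat.mul_le_mul_left _ (Nat.mul_le_mul_right _ (by omega))
      _ = 4 * u * Nat.centralBinom m := by ring
      _ ≤ _ := hcb
  rw [hsymm, htot] at hsplit
  linarith

/-- The block family. -/
theorem block_exists (F : Type) [Field F] [Algebra (ZMod 2) F] (u : ℕ) (hu : 0 < u) :
    ∃ (a : ℕ) (Z : Fin a → (Fin (16 * u ^ 2) → ZMod 2))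
      (g : Fin a → (Fin (16 * u ^ 2) → ZMod 2) → F),
      2 ^ (16 * u ^ 2) ≤ 8 * a ∧
      (∀ i j, g i (Z j) = if i = j then 1 else 0) ∧ (∀ i, HasDeg (8 * u ^ 2 - u) (g i)) ∧
      (∀ i x, g i x ≠ 0 → 8 * u ^ 2 ≤ wt x + 6 * u ∧ wt x ≤ 8 * u ^ 2 + 6 * u) := by
  classical
  set k := 16 * u ^ 2 with hk
  set N := Fintype.card {S : Finset (Fin k) // S.card ≤ 8 * u ^ 2 - u} with hN
  have hN4 : 2 ^ k ≤ 4 * N := by
    rw [hN, card_small_sets]
    exact small_sets_ge u hu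
  have hbad := bad_card u hu
  rw [← hk] at hbad
  set bad := univ.filter (fun x : Fin k → ZMod 2 =>
      ¬ (8 * u ^ 2 ≤ wt x + 6 * u ∧ wt x ≤ 8 * u ^ 2 + 6 * u)) with hbaddef
  have hle : bad.card ≤ N := by omega
  obtain ⟨Z, g, h1, h2, h3⟩ := block_family F k (8 * u ^ 2 - u) (N - bad.card) bad (by omega)
  refine ⟨N - bad.card, Z, g, by omega, h1, h2, ?_⟩
  intro i x hx
  by_contra hcon
  exact hx (h3 i x (Finset.mem_filter.mpr ⟨Finset.mem_univ _, hcon⟩))

end Vale.P346
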