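import Mathlib

/-! Iterated matrix multiplication and (syntactically homogeneous) depth-five circuits. -/

namespace Vale.P346

open MvPolynomial Finset

/-- The variables `x^{(t)}_{i,j}` of `d` generic `w × w` matrices (all indices start at `0`). -/
abbrev Var (w d : ℕ) : Type := Fin d × Fin w × Fin w

/-- `IMM_{w,d}`: the top left entry of the product of `d` generic `w × w` matrices, i.e. the sum
over all index sequences `i_0, …, i_d` with `i_0` and `i_d` the first index of
`∏_t x^{(t)}_{i_{t-1}, i_t}`. -/
noncomputable def IMM (R : Type) [CommRing R] (w d : ℕ) : MvPolynomial (Var w d) R :=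
  ∑ i ∈ (univ : Finset (Fin (d + 1) → Fin w)).filter
      (fun i => (i 0 : ℕ) = 0 ∧ (i (Fin.last d) : ℕ) = 0),
    ∏ t : Fin d, X (t, i t.castSucc, i t.succ)

/-- A `ΣΠΣΠΣ` circuit over `R` in the variables `V`.  Its vertices are the elements of the finite
types `G0` (leaves, each carrying a variable or a constant), `G1` (bottom sum gates), `G2` (bottom
product gates), `G3` (middle sum gates), `G4` (top product gates), and the output sum gate.  Sum
gates compute linear combinations of a set of vertices of the previous layer, product gates
compute products of vertices of the previous layer, with multiplicities. -/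
structure Circuit (R V : Type) where
  G0 : Type
  G1 : Type
  G2 : Type
  G3 : Type
  G4 : Type
  [fin0 : Fintype G0]
  [fin1 : Fintype G1]
  [fin2 : Fintype G2]
  [fin3 : Fintype G3]
  [fin4 : Fintype G4]
  /-- labels of the leaves -/
  leaf : G0 → V ⊕ R
  /-- inputs of the bottom sum gates -/
  in1 : G1 → Finset G0
  /-- coefficients of the bottom sum gates -/
  c1 : G1 → G0 → R
  /-- multiplicities of the inputs of the bottom product gates -/
  m2 : G2 → G1 → ℕ
  /-- inputs of the middle sum gates -/
  in3 : G3 → Finset G2
  /-- coefficients of the middle sum gates -/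
  c3 : G3 → G2 → R
  /-- multiplicities of the inputs of the top product gates -/
  m4 : G4 → G3 → ℕ
  /-- inputs of the output gate -/
  in5 : Finset G4
  /-- coefficients of the output gate -/
  c5 : G4 → R

attribute [instance] Circuit.fin0 Circuit.fin1 Circuit.fin2 Circuit.fin3 Circuit.fin4

namespace Circuit

variable {R V : Type} (C : Circuit R V)

/-- The number of vertices. -/
def size : ℕ :=
  Fintype.card C.G0 + Fintype.card C.G1 + Fintype.card C.G2 + Fintype.card C.G3 +
    Fintype.card C.G4 + 1

/-- formal degree of a leaf: `1` for a variable and `0` for a constant -/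
def deg0 (i : C.G0) : ℕ := Sum.elim (fun _ => 1) (fun _ => 0) (C.leaf i)

/-- Syntactic homogeneity: there are formal degrees `d1`, `d3`, `d5` of the sum gates such that
all inputs of a sum gate have the formal degree of that gate, where the formal degree of a
product gate is the sum of those of its inputs, with multiplicities. -/
def Homogeneous : Prop :=
  ∃ (d1 : C.G1 → ℕ) (d3 : C.G3 → ℕ) (d5 : ℕ),
    (∀ g, ∀ i ∈ C.in1 g, C.deg0 i = d1 g) ∧
    (∀ g, ∀ i ∈ C.in3 g, ∑ j, C.m2 i j * d1 j = d3 g) ∧
    (∀ i ∈ C.in5, ∑ j, C.m4 i j * d3 j = d5)

variable [CommRing R]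

/-- the polynomial computed at a leaf -/
noncomputable def val0 (i : C.G0) : MvPolynomial V R :=
  Sum.elim (fun v => X v) (fun r => MvPolynomial.C r) (C.leaf i)

/-- the polynomial computed at a bottom sum gate -/
noncomputable def val1 (g : C.G1) : MvPolynomial V R :=
  ∑ i ∈ C.in1 g, MvPolynomial.C (C.c1 g i) * C.val0 i

/-- the polynomial computed at a bottom product gate -/
noncomputable def val2 (g : C.G2) : MvPolynomial V R :=
  ∏ i, C.val1 i ^ C.m2 g i

/-- the polynomial computed at a middle sum gate -/
noncomputable def val3 (g : C.G3) : MvPolynomial V R :=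
  ∑ i ∈ C.in3 g, MvPolynomial.C (C.c3 g i) * C.val2 i

/-- the polynomial computed at a top product gate -/
noncomputable def val4 (g : C.G4) : MvPolynomial V R :=
  ∏ i, C.val3 i ^ C.m4 g i

/-- the polynomial computed by the circuit -/
noncomputable def out : MvPolynomial V R :=
  ∑ i ∈ C.in5, MvPolynomial.C (C.c5 i) * C.val4 i

end Circuit

/-- `s_R(n)`: the minimum size of a syntactically homogeneous `ΣΠΣΠΣ` circuit over `R` computing
`IMM_{n,n}`. -/
noncomputable def s (R : Type) [CommRing R] (n : ℕ) : ℕ :=
  sInf {k | ∃ C : Circuit R (Var n n), C.Homogeneous ∧ C.out = IMM R n n ∧ C.size = k}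

end Vale.P346
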