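import Vale.Agent.Lib.P346.Abp

/-! Evaluating `IMM` through matrix products, and embedding small matrices. -/

namespace Vale.P346

open Finset MvPolynomial

/-! ### Path sums and matrix products -/

lemma prod_ofFn_apply {w : ℕ} {A : Type} [CommRing A] : ∀ (d : ℕ)
    (M : Fin d → Matrix (Fin w) (Fin w) A) (a b : Fin w),
    (List.ofFn M).prod a b = ∑ i : Fin (d + 1) → Fin w,
      if i 0 = a ∧ i (Fin.last d) = b then ∏ t : Fin d, M t (i t.castSucc) (i t.succ) else 0 := by
  intro d
  induction d with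
  | zero =>
    intro M a b
    rw [← (Fin.consEquiv (fun _ : Fin 1 => Fin w)).sum_comp, Fintype.sum_prod_type]
    simp only [List.ofFn_zero, List.prod_nil, Finset.univ_eq_empty, Finset.prod_empty,
      Fin.consEquiv_apply, Fin.cons_zero]
    have h1 : ∀ (c : Fin w) (y : Fin 0 → Fin w),
        (Fin.cons (α := fun _ => Fin w) c y : Fin 1 → Fin w) (Fin.last 0) = c := fun c y => rfl
    simp_rw [h1]
    by_cases hab : a = b
    · subst hab
      simp
    · rw [Matrix.one_apply_ne hab]
      symm
      refine Finset.sum_eq_zero (fun c _ => Finset.sum_eq_zero (fun y _ => ?_))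
      rw [if_neg]
      rintro ⟨h1, h2⟩
      exact hab (h1.symm.trans h2)
  | succ d ih =>
    intro M a b
    rw [List.ofFn_succ, List.prod_cons, Matrix.mul_apply]
    rw [← (Fin.consEquiv (fun _ : Fin (d + 2) => Fin w)).sum_comp, Fintype.sum_prod_type]
    have h1 : ∀ (c : Fin w) (y : Fin (d + 1) → Fin w),
        (if (Fin.consEquiv (fun _ : Fin (d + 2) => Fin w)) (c, y) 0 = a ∧
            (Fin.consEquiv (fun _ : Fin (d + 2) => Fin w)) (c, y) (Fin.last (d + 1)) = b then
          ∏ t : Fin (d + 1), M t ((Fin.consEquiv (fun _ : Fin (d + 2) => Fin w)) (c, y) t.castSucc)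
            ((Fin.consEquiv (fun _ : Fin (d + 2) => Fin w)) (c, y) t.succ) else 0)
        = if c = a then (if y (Fin.last d) = b then M 0 a (y 0) *
            ∏ t : Fin d, M t.succ (y t.castSucc) (y t.succ) else 0) else 0 := by
      intro c y
      by_cases hc : c = a
      · subst hc
        rw [Fin.prod_univ_succ]
        have e1 : (Fin.consEquiv (fun _ : Fin (d + 2) => Fin w)) (c, y) 0 = c := rfl
        have e2 : (Fin.consEquiv (fun _ : Fin (d + 2) => Fin w)) (c, y) (Fin.last (d + 1))
            = y (Fin.last d) := rfl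
        have e3 : (Fin.consEquiv (fun _ : Fin (d + 2) => Fin w)) (c, y) (Fin.succ 0) = y 0 := rfl
        have e4 : ∀ t : Fin d,
            (Fin.consEquiv (fun _ : Fin (d + 2) => Fin w)) (c, y) t.succ.castSucc
              = y t.castSucc := fun t => rfl
        have e5 : ∀ t : Fin d,
            (Fin.consEquiv (fun _ : Fin (d + 2) => Fin w)) (c, y) t.succ.succ
              = y t.succ := fun t => rfl
        have e6 : (Fin.consEquiv (fun _ : Fin (d + 2) => Fin w)) (c, y) (Fin.castSucc 0) = c := rfl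
        rw [e1, e2, e3, e6]
        simp only [e4, e5, true_and, if_true]
      · rw [if_neg hc, if_neg]
        rintro ⟨h, _⟩
        exact hc h
    have hR : (∑ c : Fin w, ∑ y : Fin (d + 1) → Fin w,
        (if (Fin.consEquiv (fun _ : Fin (d + 2) => Fin w)) (c, y) 0 = a ∧
            (Fin.consEquiv (fun _ : Fin (d + 2) => Fin w)) (c, y) (Fin.last (d + 1)) = b then
          ∏ t : Fin (d + 1), M t ((Fin.consEquiv (fun _ : Fin (d + 2) => Fin w)) (c, y) t.castSucc)
            ((Fin.consEquiv (fun _ : Fin (d + 2) => Fin w)) (c, y) t.succ) else 0))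
        = ∑ y : Fin (d + 1) → Fin w, if y (Fin.last d) = b then M 0 a (y 0) *
            ∏ t : Fin d, M t.succ (y t.castSucc) (y t.succ) else 0 := by
      refine (Finset.sum_congr rfl (fun c _ => Finset.sum_congr rfl (fun y _ => h1 c y))).trans ?_
      rw [Finset.sum_eq_single a]
      · simp only [if_true]
      · intro c _ hc
        exact Finset.sum_eq_zero (fun y _ => by rw [if_neg hc])
      · intro h
        exact absurd (Finset.mem_univ _) h
    refine Eq.trans ?_ hR.symm
    -- group by `y 0`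
    have h2 : ∀ c : Fin w, M 0 a c * (List.ofFn (fun i : Fin d => M i.succ)).prod c b
        = ∑ y : Fin (d + 1) → Fin w, if y 0 = c ∧ y (Fin.last d) = b then
            M 0 a c * ∏ t : Fin d, M t.succ (y t.castSucc) (y t.succ) else 0 := by
      intro c
      rw [ih, Finset.mul_sum]
      refine Finset.sum_congr rfl (fun y _ => ?_)
      split_ifs <;> simp
    rw [Finset.sum_congr rfl (fun c _ => h2 c), Finset.sum_comm]
    refine Finset.sum_congr rfl (fun y _ => ?_)
    rw [Finset.sum_eq_single (y 0)]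
    · by_cases hb : y (Fin.last d) = b
      · simp [hb]
      · simp [hb]
    · intro c _ hc
      rw [if_neg]
      rintro ⟨h, _⟩
      exact hc h.symm
    · intro h
      exact absurd (Finset.mem_univ _) h

lemma eval_IMM {R : Type} [CommRing R] (φ : R →+* ZMod 2) {w d : ℕ} (hw : 0 < w)
    (v : Var w d → ZMod 2) :
    eval₂ φ v (IMM R w d) = (List.ofFn (fun t : Fin d =>
      (Matrix.of fun i j => v (t, i, j) : Matrix (Fin w) (Fin w) (ZMod 2)))).prod
        ⟨0, hw⟩ ⟨0, hw⟩ := by
  rw [prod_ofFn_apply, IMM, eval₂_sum, Finset.sum_filter]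
  refine Finset.sum_congr rfl (fun i _ => ?_)
  by_cases h : (i 0 : ℕ) = 0 ∧ (i (Fin.last d) : ℕ) = 0
  · rw [if_pos h, if_pos ⟨Fin.ext h.1, Fin.ext h.2⟩, eval₂_prod]
    refine Finset.prod_congr rfl (fun t _ => ?_)
    rw [eval₂_X]
    rfl
  · rw [if_neg h, if_neg]
    rintro ⟨h1, h2⟩
    exact h ⟨by rw [h1], by rw [h2]⟩

/-! ### Embedding -/

section embed

variable {k n m : ℕ}

/-- the embedding of matrices indexed by `St k` with entries `2 × 2` matrices into `n × n`
matrices -/
def emb (e : (St k × Fin 2) ⊕ Fin m ≃ Fin n)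
    (M : Matrix (St k) (St k) (Matrix (Fin 2) (Fin 2) (ZMod 2))) :
    Matrix (Fin n) (Fin n) (ZMod 2) :=
  Matrix.reindex e e (Matrix.fromBlocks (Matrix.compRingEquiv (St k) (Fin 2) (ZMod 2) M) 0 0 1)

lemma emb_one (e : (St k × Fin 2) ⊕ Fin m ≃ Fin n) : emb e 1 = 1 := by
  rw [emb, map_one, Matrix.fromBlocks_one]
  simp

lemma emb_mul (e : (St k × Fin 2) ⊕ Fin m ≃ Fin n)
    (M N : Matrix (St k) (St k) (Matrix (Fin 2) (Fin 2) (ZMod 2))) :
    emb e (M * N) = emb e M * emb e N := by
  rw [emb, emb, emb, map_mul]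
  simp only [Matrix.reindex_apply]
  rw [Matrix.submatrix_mul_equiv, Matrix.fromBlocks_multiply]
  simp

lemma emb_prod (e : (St k × Fin 2) ⊕ Fin m ≃ Fin n)
    (L : List (Matrix (St k) (St k) (Matrix (Fin 2) (Fin 2) (ZMod 2)))) :
    emb e L.prod = (L.map (emb e)).prod := by
  induction L with
  | nil => simp [emb_one]
  | cons M L ih => rw [List.prod_cons, emb_mul, ih, List.map_cons, List.prod_cons]

lemma emb_hub (e : (St k × Fin 2) ⊕ Fin m ≃ Fin n)
    (M : Matrix (St k) (St k) (Matrix (Fin 2) (Fin 2) (ZMod 2))) (a b : Fin 2) :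
    emb e M (e (Sum.inl (none, a))) (e (Sum.inl (none, b))) = M none none a b := by
  simp [emb, Matrix.compRingEquiv_apply, Matrix.comp_apply]

lemma exists_equiv (h : (k + 2) * 2 + m = n) (hn : 0 < n) :
    ∃ e : (St k × Fin 2) ⊕ Fin m ≃ Fin n, e (Sum.inl (none, 0)) = ⟨0, hn⟩ := by
  have hcard : Fintype.card ((St k × Fin 2) ⊕ Fin m) = Fintype.card (Fin n) := by
    simp [Fintype.card_option]
    omega
  let e0 := Fintype.equivOfCardEq hcard
  exact ⟨e0.trans (Equiv.swap (e0 (Sum.inl (none, 0))) ⟨0, hn⟩), by simp⟩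

end embed

end Vale.P346
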