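import Vale.Agent.Lib.P346.Core
import Vale.Agent.Lib.P346.Approx
import Vale.Agent.Lib.P346.Defs

/-! Low-degree approximation of the function computed by a depth-five circuit. -/

namespace Vale.P346

open MvPolynomial Finset

variable {ι : Type} [Fintype ι]

lemma zmod2_pow (a : ZMod 2) (m : ℕ) : (if m = 0 then 1 else a) = a ^ m := by
  by_cases hm : m = 0
  · simp [hm]
  · rw [if_neg hm]
    rcases zmod2_cases a with rfl | rfl
    · simp [hm]
    · simp

/-- input vector of a product gate with multiplicities `m` -/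
def gin {I : Type} (m : I → ℕ) (y : I → (ι → ZMod 2) → ZMod 2) (x : ι → ZMod 2) :
    I → ZMod 2 := fun i => if m i = 0 then 1 else y i x

omit [Fintype ι] in
lemma prod_gin {I : Type} [Fintype I] (m : I → ℕ) (y : I → (ι → ZMod 2) → ZMod 2)
    (x : ι → ZMod 2) :
    ∏ i, gin m y x i = ∏ i, y i x ^ m i :=
  Finset.prod_congr rfl (fun i _ => zmod2_pow (y i x) (m i))

omit [Fintype ι] in
lemma hasDeg_approx {I : Type} [Fintype I] {l d : ℕ} (c : Fin l → I → ZMod 2) (m : I → ℕ)
    (y : I → (ι → ZMod 2) → ZMod 2) (hy : ∀ i, HasDeg d (y i)) :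
    HasDeg (l * d) (fun x => approx c (gin m y x)) := by
  have h1 : ∀ i, HasDeg d (fun x : ι → ZMod 2 => gin m y x i) := by
    intro i
    by_cases hm : m i = 0
    · exact (hasDeg_const d 1).congr (fun x => by simp [gin, hm])
    · exact (hy i).congr (fun x => by simp [gin, hm])
  have h2 : ∀ r : Fin l, HasDeg d (fun x : ι → ZMod 2 => 1 + ∑ i, c r i * (1 + gin m y x i)) := by
    intro r
    refine (hasDeg_const d 1).add (hasDeg_sum univ _ (fun i _ => ?_))
    have := (hasDeg_const 0 (c r i)).mul ((hasDeg_const d 1).add (h1 i))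
    simpa using this
  have h3 := hasDeg_prod univ (fun _ : Fin l => d) _ (fun r _ => h2 r)
  simpa [approx] using h3

section

variable {R V : Type} [CommRing R] (C : Circuit R V) (φ : R →+* ZMod 2)

/-- values of the gates at a point -/
def ev0 (v : V → ZMod 2) (i : C.G0) : ZMod 2 := Sum.elim v φ (C.leaf i)
def ev1 (v : V → ZMod 2) (g : C.G1) : ZMod 2 := ∑ i ∈ C.in1 g, φ (C.c1 g i) * ev0 C φ v i
def ev2 (v : V → ZMod 2) (g : C.G2) : ZMod 2 := ∏ i, ev1 C φ v i ^ C.m2 g i
def ev3 (v : V → ZMod 2) (g : C.G3) : ZMod 2 := ∑ i ∈ C.in3 g, φ (C.c3 g i) * ev2 C φ v i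
def ev4 (v : V → ZMod 2) (g : C.G4) : ZMod 2 := ∏ i, ev3 C φ v i ^ C.m4 g i
def evo (v : V → ZMod 2) : ZMod 2 := ∑ i ∈ C.in5, φ (C.c5 i) * ev4 C φ v i

lemma eval_out (v : V → ZMod 2) : eval₂ φ v C.out = evo C φ v := by
  have h0 : ∀ i, eval₂ φ v (C.val0 i) = ev0 C φ v i := by
    intro i
    unfold Circuit.val0 ev0
    cases C.leaf i <;> simp
  have h1 : ∀ g, eval₂ φ v (C.val1 g) = ev1 C φ v g := by
    intro g
    unfold Circuit.val1 ev1
    rw [eval₂_sum]
    exact Finset.sum_congr rfl (fun i _ => by rw [eval₂_mul, eval₂_C, h0])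
  have h2 : ∀ g, eval₂ φ v (C.val2 g) = ev2 C φ v g := by
    intro g
    unfold Circuit.val2 ev2
    rw [eval₂_prod]
    exact Finset.prod_congr rfl (fun i _ => by rw [eval₂_pow, h1])
  have h3 : ∀ g, eval₂ φ v (C.val3 g) = ev3 C φ v g := by
    intro g
    unfold Circuit.val3 ev3
    rw [eval₂_sum]
    exact Finset.sum_congr rfl (fun i _ => by rw [eval₂_mul, eval₂_C, h2])
  have h4 : ∀ g, eval₂ φ v (C.val4 g) = ev4 C φ v g := by
    intro g
    unfold Circuit.val4 ev4
    rw [eval₂_prod]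
    exact Finset.prod_congr rfl (fun i _ => by rw [eval₂_pow, h3])
  unfold Circuit.out evo
  rw [eval₂_sum]
  exact Finset.sum_congr rfl (fun i _ => by rw [eval₂_mul, eval₂_C, h4])

/-- After substituting affine functions for the variables, a circuit agrees with a polynomial of
degree `≤ l²` on all but a `(n₂ + n₄) 2^{-l}` fraction of the points of the cube. -/
theorem circuit_approx [DecidableEq ι] (v : (ι → ZMod 2) → V → ZMod 2)
    (hv : ∀ a, HasDeg 1 (fun x => v x a)) (l : ℕ) :
    ∃ P : (ι → ZMod 2) → ZMod 2, HasDeg (l * l) P ∧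
      2 ^ l * (univ.filter (fun x => P x ≠ eval₂ φ (v x) C.out)).card
        ≤ (Fintype.card C.G2 + Fintype.card C.G4) * Fintype.card (ι → ZMod 2) := by
  classical
  -- bottom layer
  have hd0 : ∀ i, HasDeg 1 (fun x => ev0 C φ (v x) i) := by
    intro i
    rcases h : C.leaf i with a | r
    · exact (hv a).congr (fun x => by simp [ev0, h])
    · exact (hasDeg_const 1 (φ r)).congr (fun x => by simp [ev0, h])
  have hd1 : ∀ g, HasDeg 1 (fun x => ev1 C φ (v x) g) := by
    intro g
    refine hasDeg_sum (C.in1 g) (fun i x => φ (C.c1 g i) * ev0 C φ (v x) i) (fun i _ => ?_)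
    have := (hasDeg_const 0 (φ (C.c1 g i))).mul (hd0 i)
    simpa using this
  choose c2 hc2 using fun g : C.G2 =>
    exists_approx l (fun x : ι → ZMod 2 => gin (C.m2 g) (fun i x => ev1 C φ (v x) i) x)
  choose c4 hc4 using fun g : C.G4 =>
    exists_approx l (fun x : ι → ZMod 2 => gin (C.m4 g) (fun i x => ev3 C φ (v x) i) x)
  set P2 : C.G2 → (ι → ZMod 2) → ZMod 2 :=
    fun g x => approx (c2 g) (gin (C.m2 g) (fun i x => ev1 C φ (v x) i) x) with hP2
  have hdP2 : ∀ g, HasDeg l (P2 g) := by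
    intro g
    have := hasDeg_approx (c2 g) (C.m2 g) (fun i x => ev1 C φ (v x) i) hd1
    simpa using this
  set P3 : C.G3 → (ι → ZMod 2) → ZMod 2 :=
    fun g x => ∑ i ∈ C.in3 g, φ (C.c3 g i) * P2 i x with hP3
  have hdP3 : ∀ g, HasDeg l (P3 g) := by
    intro g
    refine hasDeg_sum (C.in3 g) (fun i x => φ (C.c3 g i) * P2 i x) (fun i _ => ?_)
    have := (hasDeg_const 0 (φ (C.c3 g i))).mul (hdP2 i)
    simpa using this
  set P4 : C.G4 → (ι → ZMod 2) → ZMod 2 :=
    fun g x => approx (c4 g) (gin (C.m4 g) P3 x) with hP4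
  have hdP4 : ∀ g, HasDeg (l * l) (P4 g) := by
    intro g
    exact hasDeg_approx (c4 g) (C.m4 g) P3 hdP3
  refine ⟨fun x => ∑ i ∈ C.in5, φ (C.c5 i) * P4 i x, ?_, ?_⟩
  · refine hasDeg_sum C.in5 (fun i x => φ (C.c5 i) * P4 i x) (fun i _ => ?_)
    have := (hasDeg_const 0 (φ (C.c5 i))).mul (hdP4 i)
    simpa using this
  · set E2 : C.G2 → Finset (ι → ZMod 2) := fun g =>
      univ.filter (fun x => approx (c2 g) (gin (C.m2 g) (fun i x => ev1 C φ (v x) i) x) ≠
        ∏ i, gin (C.m2 g) (fun i x => ev1 C φ (v x) i) x i) with hE2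
    set E4 : C.G4 → Finset (ι → ZMod 2) := fun g =>
      univ.filter (fun x => approx (c4 g) (gin (C.m4 g) (fun i x => ev3 C φ (v x) i) x) ≠
        ∏ i, gin (C.m4 g) (fun i x => ev3 C φ (v x) i) x i) with hE4
    have hsub : univ.filter (fun x => ∑ i ∈ C.in5, φ (C.c5 i) * P4 i x ≠ eval₂ φ (v x) C.out)
        ⊆ (univ.biUnion E2) ∪ (univ.biUnion E4) := by
      intro x hx
      by_contra hcon
      rw [Finset.mem_union, not_or] at hcon
      obtain ⟨hx2, hx4⟩ := hcon
      have h2 : ∀ g, P2 g x = ev2 C φ (v x) g := by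
        intro g
        by_contra hne
        refine hx2 (Finset.mem_biUnion.mpr ⟨g, Finset.mem_univ _, ?_⟩)
        rw [hE2, Finset.mem_filter]
        refine ⟨Finset.mem_univ _, ?_⟩
        rw [prod_gin]
        exact hne
      have h3 : ∀ g, P3 g x = ev3 C φ (v x) g := by
        intro g
        rw [hP3]
        exact Finset.sum_congr rfl (fun i _ => by rw [h2])
      have h4 : ∀ g, P4 g x = ev4 C φ (v x) g := by
        intro g
        have h5 : gin (C.m4 g) P3 x = gin (C.m4 g) (fun i x => ev3 C φ (v x) i) x := by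
          funext i
          unfold gin
          rw [h3]
        by_contra hne
        refine hx4 (Finset.mem_biUnion.mpr ⟨g, Finset.mem_univ _, ?_⟩)
        rw [hE4, Finset.mem_filter]
        refine ⟨Finset.mem_univ _, ?_⟩
        rw [prod_gin, ← h5]
        exact hne
      refine (Finset.mem_filter.mp hx).2 ?_
      rw [eval_out]
      unfold evo
      exact Finset.sum_congr rfl (fun i _ => by rw [h4])
    have hcard : (univ.filter (fun x => ∑ i ∈ C.in5, φ (C.c5 i) * P4 i x ≠
        eval₂ φ (v x) C.out)).card ≤ ∑ g, (E2 g).card + ∑ g, (E4 g).card :=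
      (Finset.card_le_card hsub).trans ((Finset.card_union_le _ _).trans
        (add_le_add Finset.card_biUnion_le Finset.card_biUnion_le))
    calc 2 ^ l * _ ≤ 2 ^ l * (∑ g, (E2 g).card + ∑ g, (E4 g).card) :=
          Nat.mul_le_mul_left _ hcard
      _ = ∑ g, 2 ^ l * (E2 g).card + ∑ g, 2 ^ l * (E4 g).card := by
          rw [mul_add, Finset.mul_sum, Finset.mul_sum]
      _ ≤ ∑ _g : C.G2, Fintype.card (ι → ZMod 2)
          + ∑ _g : C.G4, Fintype.card (ι → ZMod 2) :=
          add_le_add (Finset.sum_le_sum (fun g _ => hc2 g)) (Finset.sum_le_sum (fun g _ => hc4 g))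
      _ = (Fintype.card C.G2 + Fintype.card C.G4) * Fintype.card (ι → ZMod 2) := by
          simp [add_mul]

end

end Vale.P346
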