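import Vale.Agent.Lib.P346.Embed
import Vale.Agent.Lib.P346.Count

/-! The lower bound for depth-five circuits computing `IMM_{n,n}` modulo two. -/

namespace Vale.P346

open Finset MvPolynomial

/-! ### Generalities -/

lemma HasDeg.lift {ι : Type} {F : Type} [Field F] [Algebra (ZMod 2) F] {d : ℕ}
    {f : (ι → ZMod 2) → ZMod 2} (h : HasDeg d f) :
    HasDeg d (fun x => algebraMap (ZMod 2) F (f x)) := by
  obtain ⟨p, hp, hf⟩ := h
  refine ⟨MvPolynomial.map (algebraMap (ZMod 2) F) p, ?_, fun x => ?_⟩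
  · refine le_trans ?_ hp
    exact Finset.sup_mono (MvPolynomial.support_map_subset _ p)
  · have h1 := map_eval (algebraMap (ZMod 2) F) x p
    have h2 : eval x p = f x := hf x
    rw [h2] at h1
    exact h1.symm

lemma prod_ofFn_getD {M : Type} [Monoid M] : ∀ (n : ℕ) (L : List M), L.length ≤ n →
    (List.ofFn (fun t : Fin n => L.getD t.val 1)).prod = L.prod := by
  intro n
  induction n with
  | zero =>
    intro L hL
    have : L = [] := List.eq_nil_of_length_eq_zero (by omega)
    subst this
    simp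
  | succ n ih =>
    intro L hL
    rw [List.ofFn_succ, List.prod_cons]
    cases L with
    | nil => simp
    | cons a L' =>
      have := ih L' (by simpa using hL)
      simp only [List.prod_cons]
      rw [← this]
      rfl

/-! ### The matrix `W` of order three -/

abbrev M2 : Type := Matrix (Fin 2) (Fin 2) (ZMod 2)

def W : M2 := !![0, 1; 1, 1]

lemma W_sq : W ^ 2 = W + 1 := by
  unfold W
  decide

lemma W_two : (2 : M2) = 0 := by
  decide

/-- the top left entry of `W ^ s` -/
def wa (s : ℕ) : ZMod 2 := (W ^ s) 0 0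

lemma wa_rec (s : ℕ) : wa (s + 2) = wa (s + 1) + wa s := by
  unfold wa
  rw [pow_add, W_sq, mul_add, mul_one, ← pow_succ]
  rfl

lemma omega_pow_eq {F : Type} [Field F] [Algebra (ZMod 2) F] {ω : F} (hω : ω ^ 2 + ω + 1 = 0) :
    ∀ s : ℕ, ω ^ s = algebraMap (ZMod 2) F (wa s) + ω * algebraMap (ZMod 2) F (wa (s + 1)) := by
  have h2 : (2 : F) = 0 := two_eq_zero
  have hω2 : ω ^ 2 = ω + 1 := by
    have h3 : ω ^ 2 - (ω + 1) = 0 := by
      linear_combination hω - (ω + 1) * h2
    exact sub_eq_zero.mp h3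
  have hstep : ∀ s : ℕ,
      (ω ^ s = algebraMap (ZMod 2) F (wa s) + ω * algebraMap (ZMod 2) F (wa (s + 1))) ∧
      (ω ^ (s + 1) = algebraMap (ZMod 2) F (wa (s + 1)) +
        ω * algebraMap (ZMod 2) F (wa (s + 2))) := by
    intro s
    induction s with
    | zero =>
      have e0 : wa 0 = 1 := by decide
      have e1 : wa (0 + 1) = 0 := by decide
      have e2 : wa (0 + 2) = 1 := by decide
      rw [e0, e1, e2]
      simp
    | succ s ih =>
      refine ⟨ih.2, ?_⟩
      have h3 : ω ^ (s + 1 + 1) = ω ^ (s + 1) + ω ^ s := by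
        have : ω ^ (s + 1 + 1) = ω ^ s * ω ^ 2 := by ring
        rw [this, hω2]
        ring
      rw [h3, ih.1, ih.2, show s + 1 + 2 = (s + 1) + 2 from rfl, wa_rec (s + 1),
        show s + 1 + 1 = s + 2 from rfl, wa_rec s]
      simp only [map_add]
      ring
  exact fun s => (hstep s).1

/-! ### The substitution -/

section substitution

variable {B k : ℕ}

/-- `f` is a matrix-valued function with affine entries. -/
def Aff (f : (Fin B × Fin k → ZMod 2) → Matrix (St k) (St k) M2) : Prop :=
  ∀ (s s' : St k) (a b : Fin 2), HasDeg (F := ZMod 2) 1 (fun x => f x s s' a b)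

/-- the matrices of the `b`-th block, as functions on the cube -/
def blockFns (A : ℕ → M2) (n : ℕ) (b : Fin B) :
    List ((Fin B × Fin k → ZMod 2) → Matrix (St k) (St k) M2) :=
  (fun _ => inMat M2 k) ::
    ((List.range n).map (fun t => fun x => trMat (A t) (fun j => x (b, j))) ++
      [fun _ => outMat M2 k 1])

/-- the full list -/
def allFns (A : ℕ → M2) (n : ℕ) (e : ℕ) :
    List ((Fin B × Fin k → ZMod 2) → Matrix (St k) (St k) M2) :=
  (List.finRange B).flatMap (blockFns A n) ++ [fun _ => outMat M2 k (W ^ e)]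

lemma length_allFns (A : ℕ → M2) (n e : ℕ) :
    (allFns (B := B) (k := k) A n e).length = B * (n + 2) + 1 := by
  simp [allFns, blockFns, List.length_flatMap]

lemma aff_const (M : Matrix (St k) (St k) M2) :
    Aff (B := B) (fun _ => M) := fun _ _ _ _ => hasDeg_const 1 _

lemma aff_trMat (a : M2) (b : Fin B) :
    Aff (fun x : Fin B × Fin k → ZMod 2 => trMat a (fun j => x (b, j))) := by
  intro s s' i j
  rcases s with _ | p <;> rcases s' with _ | p'
  · exact hasDeg_const 1 _
  · exact hasDeg_const 1 _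
  · exact hasDeg_const 1 _
  · by_cases hlt : p.val < p'.val
    · have h1 : ∀ x : Fin B × Fin k → ZMod 2,
          trMat a (fun j => x (b, j)) (some p) (some p') i j
            = if i = j then ((ext0 (fun j => x (b, j)) (p'.val - 1) : ℕ) : ZMod 2) else 0 := by
        intro x
        have hlt' : p < p' := hlt
        have : trMat a (fun j => x (b, j)) (some p) (some p')
            = ((ext0 (fun j => x (b, j)) (p'.val - 1) : ℕ) : M2) := by
          simp [trMat, hlt']
        rw [this]
        by_cases hij : i = j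
        · subst hij
          rw [if_pos rfl, Matrix.natCast_apply, if_pos rfl]
        · rw [if_neg hij, Matrix.natCast_apply, if_neg hij, Nat.cast_zero]
      by_cases hij : i = j
      · have hlt2 : p'.val - 1 < k := by have := p'.isLt; omega
        refine (hasDeg_var (F := ZMod 2) (b, (⟨p'.val - 1, hlt2⟩ : Fin k))).congr (fun x => ?_)
        change _ = trMat a (fun j => x (b, j)) (some p) (some p') i j
        rw [h1, if_pos hij]
        unfold ext0
        rw [dif_pos hlt2, ZMod.natCast_zmod_val]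
        rfl
      · refine (hasDeg_const 1 (0 : ZMod 2)).congr (fun x => ?_)
        change _ = trMat a (fun j => x (b, j)) (some p) (some p') i j
        rw [h1, if_neg hij]
    · refine (hasDeg_const 1 (0 : ZMod 2)).congr (fun x => ?_)
      have hlt' : ¬ p < p' := hlt
      simp [trMat, hlt']

lemma aff_allFns (A : ℕ → M2) (n e : ℕ) :
    ∀ f ∈ allFns (B := B) (k := k) A n e, Aff f := by
  intro f hf
  simp only [allFns, blockFns, List.mem_append, List.mem_flatMap, List.mem_cons, List.mem_map,
    List.not_mem_nil, or_false] at hf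
  rcases hf with ⟨b, _, hf | ⟨t, _, rfl⟩ | hf⟩ | hf
  · subst hf
    exact aff_const _
  · exact aff_trMat _ _
  · subst hf
    exact aff_const _
  · subst hf
    exact aff_const _

lemma hubRow_list {α : Type} (l : List α) (f : α → List (Matrix (St k) (St k) M2)) (w : α → M2)
    (h : ∀ a ∈ l, HubRow (f a).prod (w a)) : HubRow ((l.flatMap f).prod) ((l.map w).prod) := by
  induction l with
  | nil =>
    simp only [List.flatMap_nil, List.prod_nil, List.map_nil]
    exact hubRow_one
  | cons a l ih =>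
    rw [List.flatMap_cons, List.prod_append, List.map_cons, List.prod_cons]
    exact (h a (List.mem_cons_self)).mul (ih (fun b hb => h b (List.mem_cons_of_mem _ hb)))

lemma prod_allFns (A : ℕ → M2) (n e s0 : ℕ)
    (hA : ∀ s, s0 ≤ s → s + 1 ≤ s0 + n → W ^ s = ∑ t ∈ range n, ((s.choose t : ℕ) : M2) * A t)
    (x : Fin B × Fin k → ZMod 2)
    (hx : ∀ b, s0 ≤ wt (fun j => x (b, j)) ∧ wt (fun j => x (b, j)) + 1 ≤ s0 + n) :
    ((allFns A n e).map (fun f => f x)).prod none none = W ^ (wt x + e) := by
  have h1 : (allFns A n e).map (fun f => f x)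
      = (List.finRange B).flatMap (fun b => fullBlock A (fun j => x (b, j)) n)
        ++ [outMat M2 k (W ^ e)] := by
    simp [allFns, blockFns, fullBlock, blockList, List.map_flatMap, Function.comp_def]
  rw [h1, List.prod_append]
  have h2 : HubRow ((List.finRange B).flatMap (fun b => fullBlock A (fun j => x (b, j)) n)).prod
      (((List.finRange B).map (fun b => W ^ wt (fun j => x (b, j)))).prod) := by
    refine hubRow_list _ _ _ (fun b _ => ?_)
    have := hubRow_fullBlock A (fun j => x (b, j)) n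
    rwa [← hA _ (hx b).1 (hx b).2] at this
  have h3 := h2.mul (hubRow_outMat (k := k) (W ^ e))
  rw [List.prod_singleton]
  rw [h3.1]
  have h4 : ∀ l : List (Fin B), (l.map (fun b => W ^ wt (fun j => x (b, j)))).prod
      = W ^ (l.map (fun b => wt (fun j => x (b, j)))).sum := by
    intro l
    induction l with
    | nil => simp
    | cons a l ih => simp [ih, pow_add]
  rw [h4, ← pow_add]
  congr 2
  rw [wt, Fintype.sum_prod_type]
  rw [← List.sum_ofFn, List.ofFn_eq_map]
  rfl

end substitution

/-- The combinatorial core of the lower bound. -/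
theorem lower_core {R : Type} [CommRing R] (φ : R →+* ZMod 2) (q n : ℕ) (hq : 0 < q)
    (hn : 41472 * q ^ 2 + 4 ≤ n) (C : Circuit R (Var n n)) (hC : C.out = IMM R n n) :
    2 ^ (2 * q) ≤ 2 * (Fintype.card C.G2 + Fintype.card C.G4) := by
  classical
  set u := 36 * q with hu
  have hupos : 0 < u := by omega
  set k := 16 * u ^ 2 with hk
  have hkq : k = 20736 * q ^ 2 := by rw [hk, hu]; ring
  have hq2 : q ≤ q ^ 2 := by nlinarith
  have hu6 : 6 * u ≤ 8 * u ^ 2 := by nlinarith
  -- field and `ω`
  let F := AlgebraicClosure (ZMod 2)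
  obtain ⟨ω, hω⟩ : ∃ ω : F, ω ^ 2 + ω + 1 = 0 := by
    have hdeg : (Polynomial.X ^ 2 + Polynomial.X + 1 : Polynomial F).degree ≠ 0 := by
      have : (Polynomial.X ^ 2 + Polynomial.X + 1 : Polynomial F).degree = 2 := by
        compute_degree!
      rw [this]
      exact two_ne_zero
    obtain ⟨ω, hω⟩ := IsAlgClosed.exists_root _ hdeg
    refine ⟨ω, ?_⟩
    simpa [Polynomial.IsRoot] using hω
  -- the interpolating family on a block
  obtain ⟨a, Z, g, ha, hgZ, hgd, hgs⟩ := block_exists F u hupos
  -- the window polynomial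
  set r := 12 * u with hr
  set s0 := 8 * u ^ 2 - 6 * u with hs0
  obtain ⟨A, hA⟩ := window_interp (A := M2) W_two r s0 (fun s => W ^ s)
  -- embedding
  have hnpos : 0 < n := by omega
  obtain ⟨m, hm⟩ : ∃ m, (k + 2) * 2 + m = n := ⟨n - (k + 2) * 2, by omega⟩
  obtain ⟨emb_e, he⟩ := exists_equiv hm hnpos
  have hlen : q * (r + 1 + 2) + 1 ≤ n := by
    have : q * (r + 1 + 2) = 432 * q ^ 2 + 3 * q := by rw [hr, hu]; ring
    omega
  -- the two substitutions
  let lay : ℕ → ℕ → (Fin q × Fin k → ZMod 2) → Matrix (St k) (St k) M2 :=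
    fun e t => (allFns A (r + 1) e).getD t (fun _ => 1)
  let v : ℕ → (Fin q × Fin k → ZMod 2) → Var n n → ZMod 2 :=
    fun e x p => emb emb_e (lay e p.1.val x) p.2.1 p.2.2
  have hlayaff : ∀ e t, Aff (lay e t) := by
    intro e t
    by_cases ht : t < (allFns (B := q) (k := k) A (r + 1) e).length
    · have : lay e t = (allFns A (r + 1) e)[t] := by
        simp [lay, ht]
      rw [this]
      exact aff_allFns A (r + 1) e _ (List.getElem_mem ht)
    · have : lay e t = fun _ => 1 := by
        simp only [lay]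
        exact List.getD_eq_default _ _ (by omega)
      rw [this]
      exact aff_const _
  have hvaff : ∀ e, ∀ p, HasDeg (F := ZMod 2) 1 (fun x => v e x p) := by
    intro e p
    rcases h1 : emb_e.symm p.2.1 with ⟨s, i⟩ | j
    · rcases h2 : emb_e.symm p.2.2 with ⟨s', i'⟩ | j'
      · refine (hlayaff e p.1.val s s' i i').congr (fun x => ?_)
        simp [v, emb, h1, h2, Matrix.compRingEquiv_apply, Matrix.comp_apply]
      · refine (hasDeg_const 1 (0 : ZMod 2)).congr (fun x => ?_)
        simp [v, emb, h1, h2]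
    · rcases h2 : emb_e.symm p.2.2 with ⟨s', i'⟩ | j'
      · refine (hasDeg_const 1 (0 : ZMod 2)).congr (fun x => ?_)
        simp [v, emb, h1, h2]
      · refine (hasDeg_const 1 ((1 : Matrix (Fin m) (Fin m) (ZMod 2)) j j')).congr (fun x => ?_)
        simp [v, emb, h1, h2]
  have hval : ∀ e, ∀ x : Fin q × Fin k → ZMod 2,
      (∀ b, s0 ≤ wt (fun j => x (b, j)) ∧ wt (fun j => x (b, j)) ≤ s0 + r) →
      eval₂ φ (v e x) C.out = wa (wt x + e) := by
    intro e x hx
    rw [hC, eval_IMM φ hnpos]
    have h1 : (fun t : Fin n => (Matrix.of fun i j => v e x (t, i, j) :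
        Matrix (Fin n) (Fin n) (ZMod 2)))
        = fun t : Fin n => (((allFns A (r + 1) e).map (fun f => emb emb_e (f x))).getD t.val 1) := by
      funext t
      have h2 : (Matrix.of fun i j => v e x (t, i, j) : Matrix (Fin n) (Fin n) (ZMod 2))
          = emb emb_e (lay e t.val x) := rfl
      rw [h2]
      by_cases ht : t.val < (allFns (B := q) (k := k) A (r + 1) e).length
      · simp [lay, ht]
      · have h3 : lay e t.val = fun _ => 1 := by
          simp only [lay]
          exact List.getD_eq_default _ _ (by omega)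
        rw [h3, emb_one, List.getD_eq_default]
        rw [List.length_map]
        omega
    rw [h1, prod_ofFn_getD n _ (by rw [List.length_map, length_allFns]; exact hlen)]
    have h4 : (allFns A (r + 1) e).map (fun f => emb emb_e (f x))
        = ((allFns A (r + 1) e).map (fun f => f x)).map (emb emb_e) := by
      rw [List.map_map]
      rfl
    rw [h4, ← emb_prod, ← he, emb_hub]
    rw [prod_allFns A (r + 1) e s0 (fun s h h' => hA s h (by omega)) x
      (fun b => ⟨(hx b).1, by have := (hx b).2; omega⟩)]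
    rfl
  -- approximations
  obtain ⟨P0, hP0d, hP0⟩ := circuit_approx C φ (v 0) (hvaff 0) (5 * q)
  obtain ⟨P1, hP1d, hP1⟩ := circuit_approx C φ (v 1) (hvaff 1) (5 * q)
  set E0 := univ.filter (fun x => P0 x ≠ eval₂ φ (v 0 x) C.out) with hE0
  set E1 := univ.filter (fun x => P1 x ≠ eval₂ φ (v 1 x) C.out) with hE1
  set S := Fintype.card C.G2 + Fintype.card C.G4 with hS
  have hEcard : 2 ^ (5 * q) * (E0 ∪ E1).card ≤ 2 * S * 2 ^ (q * k) := by
    have hc : Fintype.card (Fin q × Fin k → ZMod 2) = 2 ^ (q * k) := by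
      simp [ZMod.card]
    rw [hc] at hP0 hP1
    calc 2 ^ (5 * q) * (E0 ∪ E1).card ≤ 2 ^ (5 * q) * (E0.card + E1.card) :=
          Nat.mul_le_mul_left _ (Finset.card_union_le _ _)
      _ = 2 ^ (5 * q) * E0.card + 2 ^ (5 * q) * E1.card := by ring
      _ ≤ S * 2 ^ (q * k) + S * 2 ^ (q * k) := add_le_add hP0 hP1
      _ = 2 * S * 2 ^ (q * k) := by ring
  -- the key inequality
  have hkey : a ^ q ≤ (E0 ∪ E1).card := by
    by_contra hcon
    push Not at hcon
    obtain ⟨G, hGd, ⟨z, hz⟩, hGE, hGs⟩ := tensor_family q Z g hgZ hgd (E0 ∪ E1) hcon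
    refine hz (core hω G
      (fun x => algebraMap (ZMod 2) F (P0 x) + ω * algebraMap (ZMod 2) F (P1 x))
      (q * (8 * u ^ 2 - u)) (5 * q * (5 * q)) hGd ?_ ?_ ?_ z)
    · refine (hP0d.lift (F := F)).add ?_
      have := (hasDeg_const 0 ω).mul (hP1d.lift (F := F))
      simpa using this
    · intro x hx
      have hxE : x ∉ E0 ∪ E1 := fun h => hx (hGE x h)
      rw [Finset.mem_union, not_or] at hxE
      have hx0 : P0 x = eval₂ φ (v 0 x) C.out := by
        by_contra h
        exact hxE.1 (Finset.mem_filter.mpr ⟨Finset.mem_univ _, h⟩)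
      have hx1 : P1 x = eval₂ φ (v 1 x) C.out := by
        by_contra h
        exact hxE.2 (Finset.mem_filter.mpr ⟨Finset.mem_univ _, h⟩)
      have hwin : ∀ b, s0 ≤ wt (fun j => x (b, j)) ∧ wt (fun j => x (b, j)) ≤ s0 + r := by
        intro b
        obtain ⟨i, hi⟩ := hGs x hx b
        have := hgs i _ hi
        constructor
        · omega
        · omega
      rw [hx0, hx1, hval 0 x hwin, hval 1 x hwin, omega_pow_eq hω (wt x)]
      rfl
    · have hcard : Fintype.card (Fin q × Fin k) = q * k := by simp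
      rw [hcard]
      have e1 : q * k / 2 = q * (8 * u ^ 2) := by
        have : q * k = 2 * (q * (8 * u ^ 2)) := by rw [hk]; ring
        rw [this, Nat.mul_div_cancel_left _ (by norm_num)]
      rw [e1]
      have e2 : q * (8 * u ^ 2 - u) = q * (8 * u ^ 2) - q * u := Nat.mul_sub _ _ _
      have e3 : q * k = q * (8 * u ^ 2) + q * (8 * u ^ 2) := by rw [hk]; ring
      have e4 : q * u = 36 * q ^ 2 := by rw [hu]; ring
      have e5 : q * u ≤ q * (8 * u ^ 2) := Nat.mul_le_mul_left _ (by nlinarith)
      have e6 : 5 * q * (5 * q) = 25 * q ^ 2 := by ring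
      have e7 : 0 < q ^ 2 := by positivity
      omega
  -- conclusion
  have h1 : 2 ^ (q * k) ≤ 8 ^ q * a ^ q := by
    calc 2 ^ (q * k) = (2 ^ k) ^ q := by rw [← pow_mul, mul_comm]
      _ ≤ (8 * a) ^ q := Nat.pow_le_pow_left ha q
      _ = 8 ^ q * a ^ q := mul_pow _ _ _
  have h2 : 2 ^ (5 * q) * 2 ^ (q * k) ≤ (8 ^ q * (2 * S)) * 2 ^ (q * k) := by
    calc 2 ^ (5 * q) * 2 ^ (q * k) ≤ 2 ^ (5 * q) * (8 ^ q * a ^ q) := Nat.mul_le_mul_left _ h1
      _ ≤ 2 ^ (5 * q) * (8 ^ q * (E0 ∪ E1).card) :=
          Nat.mul_le_mul_left _ (Nat.mul_le_mul_left _ hkey)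
      _ = 8 ^ q * (2 ^ (5 * q) * (E0 ∪ E1).card) := by ring
      _ ≤ 8 ^ q * (2 * S * 2 ^ (q * k)) := Nat.mul_le_mul_left _ hEcard
      _ = (8 ^ q * (2 * S)) * 2 ^ (q * k) := by ring
  have h3 : 2 ^ (5 * q) ≤ 8 ^ q * (2 * S) := Nat.le_of_mul_le_mul_right h2 (by positivity)
  have h4 : 8 ^ q * 2 ^ (2 * q) = 2 ^ (5 * q) := by
    rw [show (8 : ℕ) = 2 ^ 3 by norm_num, ← pow_mul, ← pow_add]
    congr 1
    ring
  rw [← h4] at h3
  exact Nat.le_of_mul_le_mul_left h3 (by positivity)

end Vale.P346
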